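import Vale.Agent.P216.LS.Seg
import Mathlib.Topology.ContinuousMap.Bounded.ArzelaAscoli
import Mathlib.Topology.ContinuousMap.Bounded.Basic
import Mathlib.Topology.UniformSpace.Ascoli

/-!
# Moore-Lipschitz path spaces (P216, Theorem B)

`P a b t` is the set of the 1-Lipschitz curves `ℝ → M` which are `a` up to time `0` and `b` from
time `t` on, with the sup metric.  The inclusions `P a b t ⊆ P a b t'` are literal; times add
exactly under concatenation.
-/

open Set Filter Topology BoundedContinuousFunction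

namespace Vale.Agent.P216.PS

variable {M : Type*} [MetricSpace M]

/-! ### 1-Lipschitz curves -/

/-- 1-Lipschitz curves. -/
def Lip (f : ℝ → M) : Prop := ∀ u v, dist (f u) (f v) ≤ |u - v|

theorem Lip.lipschitz {f : ℝ → M} (h : Lip f) : LipschitzWith 1 f :=
  LipschitzWith.of_dist_le_mul fun u v => by
    rw [NNReal.coe_one, one_mul, Real.dist_eq]; exact h u v

theorem Lip.continuous {f : ℝ → M} (h : Lip f) : Continuous f := h.lipschitz.continuous

theorem lip_const (a : M) : Lip fun _ : ℝ => a := fun u v => by simp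

/-- 1-Lipschitz on ordered pairs is enough. -/
theorem lip_of_le {f : ℝ → M} (h : ∀ u v, u ≤ v → dist (f u) (f v) ≤ v - u) : Lip f := by
  intro u v
  rcases le_total u v with h1 | h1
  · rw [abs_sub_comm, abs_of_nonneg (sub_nonneg.2 h1)]
    exact h u v h1
  · rw [dist_comm, abs_of_nonneg (sub_nonneg.2 h1)]
    exact h v u h1

theorem Lip.le {f : ℝ → M} (h : Lip f) {u v : ℝ} (huv : u ≤ v) : dist (f u) (f v) ≤ v - u := by
  have := h u v
  rwa [abs_sub_comm, abs_of_nonneg (sub_nonneg.2 huv)] at this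

/-- Gluing two 1-Lipschitz pieces. -/
theorem lip_glue {f : ℝ → M} (s : ℝ)
    (h1 : ∀ u v, u ≤ v → v ≤ s → dist (f u) (f v) ≤ v - u)
    (h2 : ∀ u v, s ≤ u → u ≤ v → dist (f u) (f v) ≤ v - u) : Lip f := by
  refine lip_of_le fun u v huv => ?_
  rcases le_total v s with hv | hv
  · exact h1 u v huv hv
  rcases le_total s u with hu | hu
  · exact h2 u v hu huv
  calc dist (f u) (f v) ≤ dist (f u) (f s) + dist (f s) (f v) := dist_triangle _ _ _
    _ ≤ (s - u) + (v - s) := add_le_add (h1 u s hu le_rfl) (h2 s v le_rfl hv)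
    _ = v - u := by ring

theorem Lip.comp {f : ℝ → M} (h : Lip f) {φ : ℝ → ℝ} (hφ : ∀ u v, |φ u - φ v| ≤ |u - v|) :
    Lip fun u => f (φ u) := fun u v => (h _ _).trans (hφ u v)

/-! ### The spaces -/

/-- 1-Lipschitz curves which are `a` up to time `0` and `b` from time `t` on. -/
def P (a b : M) (t : ℝ) : Set (ℝ →ᵇ M) :=
  {w | (∀ u v, dist (w u) (w v) ≤ |u - v|) ∧ (∀ u ≤ 0, w u = a) ∧ ∀ u, t ≤ u → w u = b}

variable {a b c x y : M} {t t' s u v : ℝ} {w w' : ℝ →ᵇ M}

theorem mem_P : w ∈ P a b t ↔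
    (∀ u v, dist (w u) (w v) ≤ |u - v|) ∧ (∀ u ≤ 0, w u = a) ∧ ∀ u, t ≤ u → w u = b := Iff.rfl

theorem lip_of_mem (h : w ∈ P a b t) : Lip w := h.1

theorem eq_left (h : w ∈ P a b t) (hu : u ≤ 0) : w u = a := h.2.1 u hu

theorem eq_right (h : w ∈ P a b t) (hu : t ≤ u) : w u = b := h.2.2 u hu

theorem P_mono (h : t ≤ t') : P a b t ⊆ P a b t' :=
  fun _ hw => ⟨hw.1, hw.2.1, fun u hu => hw.2.2 u (h.trans hu)⟩

/-- Distances between curves of `P a b t` are distances on `[0, t]`. -/
theorem dist_le_of_Icc (hw : w ∈ P a b t) (hw' : w' ∈ P a b t) {C : ℝ}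
    (hC : 0 ≤ C) (h : ∀ u ∈ Icc (0 : ℝ) t, dist (w u) (w' u) ≤ C) : dist w w' ≤ C := by
  rw [BoundedContinuousFunction.dist_le hC]
  intro u
  rcases le_total u 0 with h0 | h0
  · rw [eq_left hw h0, eq_left hw' h0, dist_self]
    exact hC
  rcases le_total t u with h1 | h1
  · rw [eq_right hw h1, eq_right hw' h1, dist_self]
    exact hC
  · exact h u ⟨h0, h1⟩

section Compact

variable [CompactSpace M]

/-- The bounded continuous function of a continuous curve in a compact space. -/
noncomputable def bc (f : ℝ → M) (hf : Continuous f) : ℝ →ᵇ M :=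
  BoundedContinuousFunction.mkOfBound ⟨f, hf⟩ (Metric.diam (univ : Set M)) fun _ _ =>
    Metric.dist_le_diam_of_mem isCompact_univ.isBounded (mem_univ _) (mem_univ _)

@[simp] theorem bc_apply (f : ℝ → M) (hf : Continuous f) (u : ℝ) : bc f hf u = f u := rfl

open Classical in
/-- The bounded continuous function of a curve (junk when the curve is not continuous). -/
noncomputable def mo (f : ℝ → M) : ℝ →ᵇ M :=
  if h : Continuous f then bc f h else BoundedContinuousFunction.const ℝ (f 0)

theorem mo_apply {f : ℝ → M} (hf : Continuous f) (u : ℝ) : mo f u = f u := by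
  rw [mo, dif_pos hf]; rfl

theorem Lip.mo_apply {f : ℝ → M} (hf : Lip f) (u : ℝ) : mo f u = f u := PS.mo_apply hf.continuous u

theorem mo_mem {f : ℝ → M} (hf : Lip f) (h0 : ∀ u ≤ 0, f u = a) (h1 : ∀ u, t ≤ u → f u = b) :
    mo f ∈ P a b t :=
  ⟨fun u v => by rw [hf.mo_apply, hf.mo_apply]; exact hf u v,
    fun u hu => by rw [hf.mo_apply]; exact h0 u hu, fun u hu => by rw [hf.mo_apply]; exact h1 u hu⟩

theorem mo_self (w : ℝ →ᵇ M) : mo (fun u => w u) = w := by
  ext u
  rw [mo_apply w.continuous]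

/-- `P a b t` is compact. -/
theorem isCompact_P (a b : M) (t : ℝ) : IsCompact (P a b t) := by
  rcases lt_or_ge t 0 with ht | ht
  · -- `P a b t` has at most one element
    refine Set.Subsingleton.isCompact fun w hw w' hw' => ?_
    ext u
    rcases le_total u 0 with h0 | h0
    · rw [eq_left hw h0, eq_left hw' h0]
    · rw [eq_right hw (ht.le.trans h0), eq_right hw' (ht.le.trans h0)]
  -- the image of a compact subset of `C([0, t], M)`
  let S : Set (C(Icc (0 : ℝ) t, M)) :=
    {w | (∀ u v, dist (w u) (w v) ≤ |(u : ℝ) - v|) ∧ w ⟨0, le_rfl, ht⟩ = a ∧ w ⟨t, ht, le_rfl⟩ = b}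
  have hS : IsCompact S := by
    refine ArzelaAscoli.isCompact_of_equicontinuous S ?_ ?_
    · have himg : ContinuousMap.toFun '' S =
          {f : Icc (0 : ℝ) t → M | (∀ u v, dist (f u) (f v) ≤ |(u : ℝ) - v|) ∧
            f ⟨0, le_rfl, ht⟩ = a ∧ f ⟨t, ht, le_rfl⟩ = b} := by
        ext f
        constructor
        · rintro ⟨g, hg, rfl⟩
          exact hg
        · intro hf
          have hc : Continuous f := by
            refine (LipschitzWith.of_dist_le_mul (K := 1) fun u v => ?_).continuous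
            rw [NNReal.coe_one, one_mul, Subtype.dist_eq, Real.dist_eq]
            exact hf.1 u v
          exact ⟨⟨f, hc⟩, hf, rfl⟩
      rw [himg]
      refine IsClosed.isCompact ?_
      have h1 : IsClosed {f : Icc (0 : ℝ) t → M | ∀ u v, dist (f u) (f v) ≤ |(u : ℝ) - v|} := by
        simp only [Set.ofPred_forall]
        exact isClosed_iInter fun u => isClosed_iInter fun v =>
          isClosed_le ((continuous_apply u).dist (continuous_apply v)) continuous_const
      have h2 : IsClosed {f : Icc (0 : ℝ) t → M | f ⟨0, le_rfl, ht⟩ = a} :=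
        isClosed_eq (continuous_apply _) continuous_const
      have h3 : IsClosed {f : Icc (0 : ℝ) t → M | f ⟨t, ht, le_rfl⟩ = b} :=
        isClosed_eq (continuous_apply _) continuous_const
      exact h1.inter (h2.inter h3)
    · have := Metric.uniformEquicontinuous_of_continuity_modulus (fun r => r) tendsto_id
        (fun g : S => (g : Icc (0 : ℝ) t → M)) (fun x y g => by
          rw [Subtype.dist_eq, Real.dist_eq]
          exact g.2.1 x y)
      exact this.equicontinuous
  let ext : C(Icc (0 : ℝ) t, M) → (ℝ →ᵇ M) := fun w =>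
    bc (fun u => w (projIcc 0 t ht u)) (w.continuous.comp continuous_projIcc)
  have hext : Continuous ext := by
    refine LipschitzWith.continuous (K := 1) (LipschitzWith.of_dist_le_mul fun w w' => ?_)
    rw [NNReal.coe_one, one_mul, BoundedContinuousFunction.dist_le dist_nonneg]
    intro u
    exact ContinuousMap.dist_apply_le_dist (f := w) (g := w') (projIcc 0 t ht u)
  have himg : ext '' S = P a b t := by
    ext w
    constructor
    · rintro ⟨g, hg, rfl⟩
      refine ⟨fun u v => ?_, fun u hu => ?_, fun u hu => ?_⟩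
      · refine (hg.1 _ _).trans ?_
        have := abs_projIcc_sub_projIcc (h := ht) (c := u) (d := v)
        exact this
      · change g (projIcc 0 t ht u) = a
        rw [projIcc_of_le_left ht hu]
        exact hg.2.1
      · change g (projIcc 0 t ht u) = b
        rw [projIcc_of_right_le ht hu]
        exact hg.2.2
    · intro hw
      refine ⟨⟨fun u => w u, w.continuous.comp continuous_subtype_val⟩,
        ⟨fun u v => hw.1 u v, hw.2.1 0 le_rfl, hw.2.2 t le_rfl⟩, ?_⟩
      ext u
      change w (projIcc 0 t ht u) = w u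
      rcases le_total u 0 with h0 | h0
      · rw [projIcc_of_le_left ht h0, eq_left hw h0]
        exact eq_left hw le_rfl
      rcases le_total t u with h1 | h1
      · rw [projIcc_of_right_le ht h1, eq_right hw h1]
        exact eq_right hw le_rfl
      · rw [projIcc_of_mem ht ⟨h0, h1⟩]
  rw [← himg]
  exact hS.image hext

end Compact

/-! ### Free paths -/

variable (M) in
/-- 1-Lipschitz curves which are constant up to time `0` and from time `t` on. -/
def PP (t : ℝ) : Set (ℝ →ᵇ M) :=
  {w | (∀ u v, dist (w u) (w v) ≤ |u - v|) ∧ (∀ u ≤ 0, w u = w 0) ∧ ∀ u, t ≤ u → w u = w t}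

theorem P_subset_PP : P a b t ⊆ PP M t := fun _ hw =>
  ⟨hw.1, fun u hu => by rw [eq_left hw hu, eq_left hw le_rfl],
    fun u hu => by rw [eq_right hw hu, eq_right hw le_rfl]⟩

theorem mem_P_of_PP (hw : w ∈ PP M t) : w ∈ P (w 0) (w t) t := hw

theorem mem_P_iff : w ∈ P a b t ↔ w ∈ PP M t ∧ w 0 = a ∧ w t = b := by
  constructor
  · intro h
    exact ⟨P_subset_PP h, eq_left h le_rfl, eq_right h le_rfl⟩
  · rintro ⟨h, rfl, rfl⟩
    exact h

theorem PP_mono (h : t ≤ t') : PP M t ⊆ PP M t' := fun _ hw =>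
  ⟨hw.1, hw.2.1, fun u hu => by rw [hw.2.2 u (h.trans hu), hw.2.2 t' h]⟩

theorem dist_le_of_Icc' (ht : 0 ≤ t) (hw : w ∈ PP M t) (hw' : w' ∈ PP M t) {C : ℝ}
    (h : ∀ u ∈ Icc (0 : ℝ) t, dist (w u) (w' u) ≤ C) : dist w w' ≤ C := by
  have hC : 0 ≤ C := dist_nonneg.trans (h 0 ⟨le_rfl, ht⟩)
  rw [BoundedContinuousFunction.dist_le hC]
  intro u
  rcases le_total u 0 with h0 | h0
  · rw [hw.2.1 u h0, hw'.2.1 u h0]
    exact h 0 ⟨le_rfl, ht⟩
  rcases le_total t u with h1 | h1
  · rw [hw.2.2 u h1, hw'.2.2 u h1]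
    exact h t ⟨ht, le_rfl⟩
  · exact h u ⟨h0, h1⟩

/-- **Continuity into the path spaces is pointwise.** -/
theorem continuousOn_of_eval {T : Type*} [TopologicalSpace T] {S : Set T} {F : T → ℝ →ᵇ M}
    (ht : 0 ≤ t) (hF : ∀ x ∈ S, F x ∈ PP M t) (h : ∀ u, ContinuousOn (fun x => F x u) S) :
    ContinuousOn F S := by
  intro x₀ hx₀
  rw [ContinuousWithinAt, Metric.tendsto_nhds]
  intro ε hε
  obtain ⟨N, hN1, hN2, hN3⟩ := (isCompact_Icc (a := (0 : ℝ)) (b := t)).finite_cover_balls
    (show 0 < ε / 4 by positivity)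
  have h1 : ∀ᶠ x in 𝓝[S] x₀, ∀ y ∈ N, dist (F x y) (F x₀ y) < ε / 4 := by
    rw [eventually_all_finite hN2]
    intro y _
    exact Metric.tendsto_nhds.1 (h y x₀ hx₀) _ (by positivity)
  filter_upwards [h1, self_mem_nhdsWithin] with x hx hxS
  have h2 : dist (F x) (F x₀) ≤ 3 * (ε / 4) := by
    refine dist_le_of_Icc' ht (hF x hxS) (hF x₀ hx₀) fun u hu => ?_
    obtain ⟨y, hy, hyu⟩ := mem_iUnion₂.1 (hN3 hu)
    rw [Metric.mem_ball, Real.dist_eq] at hyu
    have e1 := (hF x hxS).1 u y
    have e2 := (hF x₀ hx₀).1 y u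
    rw [abs_sub_comm] at e2
    have e3 := dist_triangle4 (F x u) (F x y) (F x₀ y) (F x₀ u)
    have e4 := hx y hy
    linarith
  linarith

/-- Continuity of evaluations. -/
theorem continuousOn_eval {T : Type*} [TopologicalSpace T] {S : Set T} {W : T → ℝ →ᵇ M}
    {f : T → ℝ} (hW : ContinuousOn W S) (hf : ContinuousOn f S) :
    ContinuousOn (fun x => W x (f x)) S := by
  have : Continuous fun p : (ℝ →ᵇ M) × ℝ => p.1 p.2 := continuous_eval
  exact this.comp_continuousOn (hW.prodMk hf)

theorem ContinuousOn.if_le' {T X : Type*} [TopologicalSpace T] [TopologicalSpace X] {S : Set T}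
    {f g : T → ℝ} {F G : T → X} (hF : ContinuousOn F S) (hG : ContinuousOn G S)
    (hf : ContinuousOn f S) (hg : ContinuousOn g S) (hfg : ∀ x ∈ S, f x = g x → F x = G x) :
    ContinuousOn (fun x => if f x ≤ g x then F x else G x) S := by
  rw [continuousOn_iff_continuous_domRestrict] at *
  exact Continuous.if_le hF hG hf hg fun x hx => hfg x x.2 hx

/-! ### Splicing -/

/-- `w` on `[0, σ]`, then the short segment from `w σ` to `w' τ` in time `r`, then `w'` from
time `τ` on. -/
noncomputable def spl (r : ℝ) (w w' : ℝ → M) (σ τ : ℝ) (u : ℝ) : M :=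
  if u ≤ σ then w u else if u ≤ σ + r then LS.seg (w σ) (w' τ) ((u - σ) / r)
  else w' (τ + (u - σ - r))

variable {ρ r σ τ : ℝ}

theorem spl_left {w w' : ℝ → M} (hu : u ≤ σ) : spl r w w' σ τ u = w u := if_pos hu

theorem spl_mid {w w' : ℝ → M} (h1 : σ ≤ u) (h2 : u ≤ σ + r) :
    spl r w w' σ τ u = LS.seg (w σ) (w' τ) ((u - σ) / r) := by
  rcases h1.eq_or_lt with rfl | h1
  · rw [spl_left le_rfl, sub_self, zero_div, LS.seg_zero]
  · rw [spl, if_neg (not_le.2 h1), if_pos h2]

theorem spl_right {w w' : ℝ → M} (hr : 0 < r) (h2 : σ + r ≤ u) :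
    spl r w w' σ τ u = w' (τ + (u - σ - r)) := by
  rcases h2.eq_or_lt with rfl | h2
  · rw [spl_mid (by linarith) le_rfl, add_sub_cancel_left, div_self hr.ne', LS.seg_one, sub_self,
      add_zero]
  · rw [spl, if_neg (by linarith), if_neg (not_le.2 h2)]

theorem lip_spl (h : LS.UniqSeg M ρ) (hr : 0 < r) (hrρ : r < ρ) {w w' : ℝ → M} (hw : Lip w)
    (hw' : Lip w') (hd : dist (w σ) (w' τ) ≤ r) : Lip (spl r w w' σ τ) := by
  refine lip_glue σ (fun u v huv hv => ?_) fun u v hu huv => ?_
  · rw [spl_left (huv.trans hv), spl_left hv]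
    exact hw.le huv
  rcases le_total v (σ + r) with hv | hv
  · rw [spl_mid hu (huv.trans hv), spl_mid (hu.trans huv) hv]
    rw [LS.dist_seg_seg_le h (hd.trans_lt hrρ) (div_nonneg (by linarith) hr.le)
      (div_le_div_of_nonneg_right (by linarith) hr.le) ((div_le_one hr).2 (by linarith))]
    calc ((v - σ) / r - (u - σ) / r) * dist (w σ) (w' τ)
        ≤ ((v - σ) / r - (u - σ) / r) * r := mul_le_mul_of_nonneg_left hd (by
          rw [← sub_div]; exact div_nonneg (by linarith) hr.le)
      _ = v - u := by field_simp; ring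
  rcases le_total (σ + r) u with hu' | hu'
  · rw [spl_right hr hu', spl_right hr hv]
    refine (hw'.le (by linarith)).trans_eq (by ring)
  · have h1 : dist (spl r w w' σ τ u) (w' τ) ≤ σ + r - u := by
      rw [spl_mid hu hu']
      have h2 : (u - σ) / r ∈ Icc (0 : ℝ) 1 :=
        ⟨div_nonneg (by linarith) hr.le, (div_le_one hr).2 (by linarith)⟩
      rw [LS.dist_seg_right h (hd.trans_lt hrρ) h2]
      calc (1 - (u - σ) / r) * dist (w σ) (w' τ) ≤ (1 - (u - σ) / r) * r :=
            mul_le_mul_of_nonneg_left hd (by linarith [h2.2])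
        _ = σ + r - u := by field_simp; ring
    have h3 : dist (w' τ) (spl r w w' σ τ v) ≤ v - σ - r := by
      rw [spl_right hr hv]
      exact (hw'.le (by linarith)).trans_eq (by ring)
    linarith [dist_triangle (spl r w w' σ τ u) (w' τ) (spl r w w' σ τ v)]

theorem spl_eq_left {w w' : ℝ → M} (hσ : 0 ≤ σ) (hw : ∀ u ≤ 0, w u = a) (hu : u ≤ 0) :
    spl r w w' σ τ u = a := by rw [spl_left (hu.trans hσ), hw u hu]

theorem spl_eq_right {w w' : ℝ → M} (hr : 0 < r) (hw' : ∀ u, t ≤ u → w' u = b) (hτ : τ ≤ t)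
    (hu : σ + r + (t - τ) ≤ u) : spl r w w' σ τ u = b := by
  rw [spl_right hr (by linarith), hw' _ (by linarith)]

variable [CompactSpace M]

/-- `spl` as a point of the path spaces. -/
noncomputable def splice (r : ℝ) (w w' : ℝ →ᵇ M) (σ τ : ℝ) : ℝ →ᵇ M := mo (spl r w w' σ τ)

theorem splice_apply (h : LS.UniqSeg M ρ) (hr : 0 < r) (hrρ : r < ρ) (hw : Lip w) (hw' : Lip w')
    (hd : dist (w σ) (w' τ) ≤ r) (u : ℝ) : splice r w w' σ τ u = spl r w w' σ τ u :=
  (lip_spl h hr hrρ hw hw' hd).mo_apply u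

theorem splice_mem (h : LS.UniqSeg M ρ) (hr : 0 < r) (hrρ : r < ρ) (hw : Lip w) (hw' : Lip w')
    (hd : dist (w σ) (w' τ) ≤ r) (hσ : 0 ≤ σ) (hτ : τ ≤ t) (ha : ∀ u ≤ 0, w u = a)
    (hb : ∀ u, t ≤ u → w' u = b) : splice r w w' σ τ ∈ P a b (σ + r + (t - τ)) :=
  mo_mem (lip_spl h hr hrρ hw hw' hd) (fun _ hu => spl_eq_left hσ ha hu)
    fun _ hu => spl_eq_right hr hb hτ hu

/-- Pointwise continuity of the splicing. -/
theorem continuousOn_spl (h : LS.UniqSeg M ρ) (hr : 0 < r) (hrρ : r < ρ) {T : Type*}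
    [TopologicalSpace T] {S : Set T} {W W' : T → ℝ →ᵇ M} {σ τ : T → ℝ}
    (hW : ContinuousOn W S) (hW' : ContinuousOn W' S) (hσ : ContinuousOn σ S)
    (hτ : ContinuousOn τ S) (hd : ∀ x ∈ S, dist (W x (σ x)) (W' x (τ x)) ≤ r) (u : ℝ) :
    ContinuousOn (fun x => spl r (W x) (W' x) (σ x) (τ x) u) S := by
  -- with the time of the segment clamped to `[0, 1]`
  have e : ∀ x, spl r (W x) (W' x) (σ x) (τ x) u = if u ≤ σ x then W x u else
      if u ≤ σ x + r then LS.seg (W x (σ x)) (W' x (τ x)) (max 0 (min 1 ((u - σ x) / r)))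
      else W' x (τ x + (u - σ x - r)) := by
    intro x
    rw [spl]
    split_ifs with h1 h2
    · rfl
    · rw [min_eq_right ((div_le_one hr).2 (by linarith)),
        max_eq_right (div_nonneg (by linarith) hr.le)]
    · rfl
  simp only [e]
  refine ContinuousOn.if_le' (continuousOn_eval hW continuousOn_const) ?_ continuousOn_const hσ
    fun x _ hx => ?_
  · refine ContinuousOn.if_le' ?_ ?_ continuousOn_const (hσ.add continuousOn_const)
      fun x _ hx => ?_
    · refine LS.ContinuousOn.seg h (continuousOn_eval hW hσ) (continuousOn_eval hW' hτ) ?_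
        (fun x hx => (hd x hx).trans_lt hrρ) fun x _ => ?_
      · exact continuousOn_const.sup (continuousOn_const.inf
          ((continuousOn_const.sub hσ).div_const r))
      · exact ⟨le_max_left _ _, max_le zero_le_one (min_le_left _ _)⟩
    · exact continuousOn_eval hW' (hτ.add ((continuousOn_const.sub hσ).sub continuousOn_const))
    · have : (u - σ x) / r = 1 := by rw [hx, add_sub_cancel_left, div_self hr.ne']
      rw [this, min_self, max_eq_right zero_le_one, LS.seg_one, hx]
      congr 1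
      ring
  · have : (u - σ x) / r = 0 := by rw [hx, sub_self, zero_div]
    rw [if_pos (by linarith), this, min_eq_right zero_le_one, max_self, LS.seg_zero, hx]

/-- Continuity of the splicing. -/
theorem continuousOn_splice (h : LS.UniqSeg M ρ) (hr : 0 < r) (hrρ : r < ρ) {T : Type*}
    [TopologicalSpace T] {S : Set T} {W W' : T → ℝ →ᵇ M} {σ τ : T → ℝ} (ht : 0 ≤ t)
    (hW : ContinuousOn W S) (hW' : ContinuousOn W' S) (hσ : ContinuousOn σ S)
    (hτ : ContinuousOn τ S) (hd : ∀ x ∈ S, dist (W x (σ x)) (W' x (τ x)) ≤ r)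
    (hL : ∀ x ∈ S, Lip (W x)) (hL' : ∀ x ∈ S, Lip (W' x))
    (hm : ∀ x ∈ S, splice r (W x) (W' x) (σ x) (τ x) ∈ PP M t) :
    ContinuousOn (fun x => splice r (W x) (W' x) (σ x) (τ x)) S := by
  refine continuousOn_of_eval ht hm fun u => ?_
  refine (continuousOn_spl h hr hrρ hW hW' hσ hτ hd u).congr fun x hx => ?_
  exact splice_apply h hr hrρ (hL x hx) (hL' x hx) (hd x hx) u

/-! ### Concatenation -/

/-- `f` up to time `t`, then `g` from its time `0` on. -/
noncomputable def catf (t : ℝ) (f g : ℝ → M) (u : ℝ) : M := if u ≤ t then f u else g (u - t)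

omit [CompactSpace M] [MetricSpace M] in
theorem catf_left {f g : ℝ → M} (hu : u ≤ t) : catf t f g u = f u := if_pos hu

omit [CompactSpace M] [MetricSpace M] in
theorem catf_right {f g : ℝ → M} (hfg : f t = g 0) (hu : t ≤ u) : catf t f g u = g (u - t) := by
  rcases hu.eq_or_lt with rfl | hu
  · rw [catf_left le_rfl, hfg, sub_self]
  · rw [catf, if_neg (not_le.2 hu)]

omit [CompactSpace M] in
theorem lip_catf {f g : ℝ → M} (hf : Lip f) (hg : Lip g) (hfg : f t = g 0) :
    Lip (catf t f g) := by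
  refine lip_glue t (fun u v huv hv => ?_) fun u v hu huv => ?_
  · rw [catf_left (huv.trans hv), catf_left hv]
    exact hf.le huv
  · rw [catf_right hfg hu, catf_right hfg (hu.trans huv)]
    exact (hg.le (by linarith)).trans_eq (by ring)

/-- Concatenation at time `t`. -/
noncomputable def cat (t : ℝ) (w w' : ℝ →ᵇ M) : ℝ →ᵇ M := mo (catf t w w')

theorem cat_apply (hw : Lip w) (hw' : Lip w') (h : w t = w' 0) (u : ℝ) :
    cat t w w' u = catf t w w' u := (lip_catf hw hw' h).mo_apply u

theorem cat_mem (ht : 0 ≤ t) (ht' : 0 ≤ t') (hw : w ∈ P a b t) (hw' : w' ∈ P b c t') :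
    cat t w w' ∈ P a c (t + t') := by
  have hbb : w t = w' 0 := by rw [eq_right hw le_rfl, eq_left hw' le_rfl]
  refine mo_mem (lip_catf hw.1 hw'.1 hbb) (fun u hu => ?_) fun u hu => ?_
  · rw [catf_left (hu.trans ht), eq_left hw hu]
  · rw [catf_right hbb (by linarith), eq_right hw' (by linarith)]

/-- Concatenation of free paths. -/
theorem cat_mem_PP (ht : 0 ≤ t) (ht' : 0 ≤ t') (hw : w ∈ PP M t) (hw' : w' ∈ PP M t')
    (h : w t = w' 0) : cat t w w' ∈ PP M (t + t') :=
  P_subset_PP (cat_mem (b := w t) ht ht' (mem_P_of_PP hw) (by rw [h]; exact mem_P_of_PP hw'))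

theorem dist_cat_cat_le {v v' : ℝ →ᵇ M} (hw : Lip w) (hw' : Lip w') (hv : Lip v) (hv' : Lip v')
    (h : w t = v 0) (h' : w' t = v' 0) :
    dist (cat t w v) (cat t w' v') ≤ max (dist w w') (dist v v') := by
  rw [BoundedContinuousFunction.dist_le (le_max_of_le_left dist_nonneg)]
  intro u
  rw [cat_apply hw hv h, cat_apply hw' hv' h', catf, catf]
  split_ifs
  · exact (BoundedContinuousFunction.dist_coe_le_dist u).trans (le_max_left _ _)
  · exact (BoundedContinuousFunction.dist_coe_le_dist _).trans (le_max_right _ _)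

/-- Continuity of the concatenation. -/
theorem continuousOn_cat {T : Type*} [TopologicalSpace T] {S : Set T} {W V : T → ℝ →ᵇ M}
    {s : T → ℝ} (ht : 0 ≤ t) (hW : ContinuousOn W S) (hV : ContinuousOn V S)
    (hs : ContinuousOn s S) (hL : ∀ x ∈ S, Lip (W x)) (hL' : ∀ x ∈ S, Lip (V x))
    (he : ∀ x ∈ S, W x (s x) = V x 0) (hm : ∀ x ∈ S, cat (s x) (W x) (V x) ∈ PP M t) :
    ContinuousOn (fun x => cat (s x) (W x) (V x)) S := by
  refine continuousOn_of_eval ht hm fun u => ?_
  refine ContinuousOn.congr (f := fun x => catf (s x) (W x) (V x) u) ?_ fun x hx => ?_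
  · refine ContinuousOn.if_le' (continuousOn_eval hW continuousOn_const)
      (continuousOn_eval hV (continuousOn_const.sub hs)) continuousOn_const hs fun x hx hu => ?_
    rw [hu, he x hx, sub_self]
  · exact cat_apply (hL x hx) (hL' x hx) (he x hx) u

/-! ### The splicing on the edges -/

/-- The constant path. -/
noncomputable def cst (a : M) : ℝ →ᵇ M := BoundedContinuousFunction.const ℝ a

omit [CompactSpace M] in
@[simp] theorem cst_apply (a : M) (u : ℝ) : cst a u = a := rfl

omit [CompactSpace M] in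
theorem cst_mem (a : M) (t : ℝ) : cst a ∈ P a a t :=
  ⟨fun u v => by simp, fun _ _ => rfl, fun _ _ => rfl⟩

omit [CompactSpace M] in
theorem lip_cst (a : M) : Lip (cst a) := fun u v => by simp

theorem splice_congr {v v' : ℝ →ᵇ M} {σ' τ' : ℝ}
    (h : ∀ u, spl r w w' σ τ u = spl r v v' σ' τ' u) : splice r w w' σ τ = splice r v v' σ' τ' := by
  rw [splice, splice, show spl r w w' σ τ = spl r v v' σ' τ' from funext h]

/-- At `σ = 0` the first path only enters through its origin. -/
theorem splice_zero_left (hr : 0 < r) (ha : ∀ u ≤ 0, w u = a) :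
    splice r w w' 0 τ = splice r (cst a) w' 0 τ := by
  refine splice_congr fun u => ?_
  rcases le_total u 0 with h0 | h0
  · rw [spl_left h0, spl_left h0, ha u h0, cst_apply]
  rcases le_total u (0 + r) with h1 | h1
  · rw [spl_mid h0 h1, spl_mid h0 h1, ha 0 le_rfl, cst_apply]
  · rw [spl_right hr h1, spl_right hr h1]

/-- At `τ = t'`, the end of the second path, the second path only enters through its end point. -/
theorem splice_end_right (hr : 0 < r) (hb : ∀ u, t ≤ u → w' u = b) :
    splice r w w' σ t = splice r w (cst b) σ 0 := by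
  refine splice_congr fun u => ?_
  rcases le_total u σ with h0 | h0
  · rw [spl_left h0, spl_left h0]
  rcases le_total u (σ + r) with h1 | h1
  · rw [spl_mid h0 h1, spl_mid h0 h1, hb t le_rfl, cst_apply]
  · rw [spl_right hr h1, spl_right hr h1, hb _ (by linarith), cst_apply]

/-- At `σ = t`, the end of the first path: concatenation. -/
theorem splice_end_left (h : LS.UniqSeg M ρ) (hr : 0 < r) (hrρ : r < ρ) (hw : Lip w)
    (hw' : Lip w') (hd : dist (w t) (w' τ) ≤ r) :
    splice r w w' t τ = cat t w (splice r (cst (w t)) w' 0 τ) := by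
  have hd' : dist (cst (w t) 0) (w' τ) ≤ r := by rwa [cst_apply]
  have h1 := lip_spl h hr hrρ (lip_cst (w t)) hw' hd'
  have h2 : (w t : M) = splice r (cst (w t)) w' 0 τ 0 := by
    rw [splice_apply h hr hrρ (lip_cst _) hw' hd', spl_left le_rfl, cst_apply]
  ext u
  rw [splice_apply h hr hrρ hw hw' hd, cat_apply hw (fun u v => by
    rw [splice_apply h hr hrρ (lip_cst _) hw' hd', splice_apply h hr hrρ (lip_cst _) hw' hd']
    exact h1 u v) h2]
  rcases le_total u t with h0 | h0
  · rw [spl_left h0, catf_left h0]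
  rw [catf_right h2 h0, splice_apply h hr hrρ (lip_cst _) hw' hd']
  rcases le_total u (t + r) with h3 | h3
  · rw [spl_mid h0 h3, spl_mid (by linarith) (by linarith), cst_apply, sub_zero]
  · rw [spl_right hr h3, spl_right hr (by linarith)]
    congr 1
    ring

/-- At `τ = 0`, the beginning of the second path: concatenation. -/
theorem splice_zero_right (h : LS.UniqSeg M ρ) (hr : 0 < r) (hrρ : r < ρ) (hw : Lip w)
    (hw' : Lip w') (hd : dist (w σ) (w' 0) ≤ r) :
    splice r w w' σ 0 = cat (σ + r) (splice r w (cst (w' 0)) σ 0) w' := by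
  have hd' : dist (w σ) (cst (w' 0) 0) ≤ r := by rwa [cst_apply]
  have h1 := lip_spl h hr hrρ hw (lip_cst (w' 0)) hd'
  have h2 : (splice r w (cst (w' 0)) σ 0 (σ + r) : M) = w' 0 := by
    rw [splice_apply h hr hrρ hw (lip_cst _) hd', spl_right hr le_rfl, cst_apply]
  ext u
  rw [splice_apply h hr hrρ hw hw' hd, cat_apply (fun u v => by
    rw [splice_apply h hr hrρ hw (lip_cst _) hd', splice_apply h hr hrρ hw (lip_cst _) hd']
    exact h1 u v) hw' h2]
  rcases le_total u (σ + r) with h0 | h0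
  · rw [catf_left h0, splice_apply h hr hrρ hw (lip_cst _) hd']
    rcases le_total u σ with h3 | h3
    · rw [spl_left h3, spl_left h3]
    · rw [spl_mid h3 h0, spl_mid h3 h0, cst_apply]
  · rw [catf_right h2 h0, spl_right hr h0]
    congr 1
    ring

end Vale.Agent.P216.PS
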