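import Vale.Agent.P216.H311.SwapGeo
import Vale.Agent.P216.H787.Swap
import Mathlib.Topology.Connected.Clopen

/-!
# Homotopies in list language; the point lemmas of the edges `σ = t` and `τ = 0`
-/

open Set Finsupp Topology BoundedContinuousFunction

namespace Vale.Agent.P216.PS

open Sl

variable {k : Type} [Field k]

/-! ### Small lists -/

/-- The entries of `l` lie in `X` and have mutual distances `< ε`. -/
def SmL {E : Type*} [PseudoMetricSpace E] (X : Set E) (ε : ℝ) (l : List E) : Prop :=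
  (∀ x ∈ l, x ∈ X) ∧ ∀ x ∈ l, ∀ y ∈ l, dist x y < ε

section

variable {E E' V : Type}

theorem dl_add (f g : List E → k) (l : List E) : dl (fun l => f l + g l) l = dl f l + dl g l :=
  ev_add_fun f g _

theorem dl_smul (a : k) (f : List E → k) (l : List E) : dl (fun l => a * f l) l = a * dl f l :=
  ev_smul_fun a f _

theorem dl_neg (f : List E → k) (l : List E) : dl (fun l => -f l) l = -dl f l := by
  have := dl_smul (-1 : k) f l
  simpa using this

theorem ev_dl_eq_zero {f : List E → k} {z : Ch k E} (hz : bd z = 0) : ev (dl f) z = 0 := by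
  rw [ev_dl, hz, map_zero]

/-! ### Contiguity -/

/-- The two maps as one. -/
def two (f₀ f₁ : E → E') (p : E × Bool) : E' := if p.2 then f₁ p.1 else f₀ p.1

/-- The prism of a list. -/
noncomputable def prg (f₀ f₁ : E → E') (eta : List E' → k) (l : List E) : k :=
  -(-1 : k) ^ l.length * ev (fun l' => eta (l'.map (two f₀ f₁))) (Sh l [false, true])

theorem dl_sign (g : List E → k) (l : List E) :
    dl (fun l' => -(-1 : k) ^ l'.length * g l') l = (-1 : k) ^ l.length * dl g l := by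
  rw [dl, dl, ← ev_smul_fun]
  refine ev_congr (fun l' hl' => ?_) (bdL_mem l)
  rw [← hl', pow_succ]
  ring

/-- **Contiguity**: the two pull-backs differ by a coboundary. -/
theorem prg_spec (f₀ f₁ : E → E') (eta : List E' → k) {l : List E} (hl : l ≠ [])
    (h : ∀ l', l'.length = l.length + 1 → (∀ y ∈ l', ∃ x ∈ l, y = f₀ x ∨ y = f₁ x) →
      dl eta l' = 0) :
    eta (l.map f₁) - eta (l.map f₀) = dl (prg f₀ f₁ eta) l := by
  obtain ⟨n, hn⟩ : ∃ n, l.length = n + 1 := by
    rcases l with _ | ⟨a, l⟩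
    · exact absurd rfl hl
    · exact ⟨l.length, rfl⟩
  set F : List (E × Bool) → k := fun l' => eta (l'.map (two f₀ f₁)) with hF
  have h1 : bd (Sh l [false, true] : Ch k (E × Bool)) = sh (bdL l) (single [false, true] 1) +
      (-1 : k) ^ n • (single (l.map fun a => (a, true)) 1 - single (l.map fun a => (a, false)) 1)
      := by
    have := bd_sh (k := k) (p := n) (q := 1) (by omega) (single_Ln hn 1)
      (single_Ln (l := [false, true]) (by simp) 1)
    rw [sh_single, bd_single, bd_single, one_smul, one_smul] at this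
    rw [this]
    congr 1
    have e : (bdL [false, true] : Ch k Bool) = single [true] 1 - single [false] 1 := by
      simp [bdL_cons, bdL_nil]
    rw [e, map_sub, sh_single, sh_single, Sh_point_right _ hl, Sh_point_right _ hl]
  have h2 : ev F (bd (Sh l [false, true])) = 0 := by
    rw [← ev_dl]
    refine ev_zero_of (fun l' hl' => ?_) (Sh_mem _ l [false, true] rfl)
    have e : dl F l' = dl eta (l'.map (two f₀ f₁)) := by
      rw [dl, dl, hF, ← ev_mp, ← one_smul k (bdL l' : Ch k _), ← bd_single, ← bd_mp, mp_single,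
        bd_single, one_smul]
    rw [e]
    refine h _ ?_ fun y hy => ?_
    · have := hl'.1
      simp only [List.length_cons, List.length_nil, List.length_map] at this ⊢
      omega
    · obtain ⟨x, hx, rfl⟩ := List.mem_map.1 hy
      refine ⟨x.1, (hl'.2 x hx).1, ?_⟩
      rw [two]
      split_ifs
      · exact Or.inr rfl
      · exact Or.inl rfl
  rw [h1, map_add, map_smul, map_sub, ev_single, ev_single] at h2
  have h3 : ev F (sh (bdL l) (single [false, true] 1)) =
      dl (fun l' => ev F (Sh l' [false, true])) l := by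
    rw [dl]
    refine lin_ext_apply (f := ev F ∘ₗ (sh (k := k)).flip (single [false, true] 1))
      (g := ev fun l' => ev F (Sh l' [false, true])) (fun l' => ?_) (bdL l)
    rw [LinearMap.comp_apply, LinearMap.flip_apply, sh_single, ev_single, one_mul]
  rw [h3] at h2
  have e1 : F (l.map fun a => (a, true)) = eta (l.map f₁) := by
    simp only [hF, List.map_map]
    rfl
  have e0 : F (l.map fun a => (a, false)) = eta (l.map f₀) := by
    simp only [hF, List.map_map]
    rfl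
  rw [e1, e0, one_mul, one_mul, smul_eq_mul] at h2
  have h4 : dl (prg f₀ f₁ eta) l = (-1 : k) ^ l.length *
      dl (fun l' => ev F (Sh l' [false, true])) l := dl_sign _ l
  have hs : (-1 : k) ^ n * (-1) ^ n = 1 := by
    rw [← mul_pow]
    simp
  rw [h4, hn, pow_succ]
  linear_combination (-1 : k) ^ n * h2 - (eta (l.map f₁) - eta (l.map f₀)) * hs

theorem dl_zero_fun (l : List E) : dl (fun _ => (0 : k)) l = 0 := ev_zero_fun _

theorem dl_sum {ι : Type} (s : Finset ι) (c : ι → k) (b : ι → List E → k) (l : List E) :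
    dl (fun l => ∑ i ∈ s, c i * b i l) l = ∑ i ∈ s, c i * dl (b i) l := by
  classical
  induction s using Finset.induction_on with
  | empty => simp only [Finset.sum_empty]; exact dl_zero_fun l
  | insert i s hi ih =>
    simp only [Finset.sum_insert hi]
    rw [dl_add, dl_smul, ih]

/-! ### Homotopies -/

section Homotopy

variable [PseudoMetricSpace E] [PseudoMetricSpace E'] [PseudoMetricSpace V]
  {X : Set E} {X' : Set E'} {δ ε : ℝ} {d : ℕ} {eta : List E' → k} {f₀ f₁ f₂ : E → E'}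

omit [PseudoMetricSpace E'] in
theorem SmL.mono {Y : Set E} {l : List E} (h : SmL X δ l) (hXY : X ⊆ Y) (hδ : δ ≤ ε) :
    SmL Y ε l := ⟨fun x hx => hXY (h.1 x hx), fun x hx y hy => (h.2 x hx y hy).trans_le hδ⟩

omit [PseudoMetricSpace E'] [PseudoMetricSpace V] in
/-- The pull-backs of `eta` by `f₀` and `f₁` differ by a coboundary on the `δ`-small lists. -/
def Hm (eta : List E' → k) (X : Set E) (δ : ℝ) (d : ℕ) (f₀ f₁ : E → E') : Prop :=
  ∃ b : List E → k, ∀ l, l.length = d + 1 → SmL X δ l →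
    eta (l.map f₁) - eta (l.map f₀) = dl b l

omit [PseudoMetricSpace E'] in
theorem Hm.refl (f : E → E') : Hm eta X δ d f f :=
  ⟨fun _ => 0, fun l _ _ => by rw [sub_self, dl_zero_fun]⟩

omit [PseudoMetricSpace E'] in
theorem Hm.symm (h : Hm eta X δ d f₀ f₁) : Hm eta X δ d f₁ f₀ := by
  obtain ⟨b, hb⟩ := h
  refine ⟨fun l => -b l, fun l h1 h2 => ?_⟩
  rw [dl_neg, ← hb l h1 h2]
  ring

omit [PseudoMetricSpace E'] in
theorem Hm.trans (h : Hm eta X δ d f₀ f₁) (h' : Hm eta X δ d f₁ f₂) : Hm eta X δ d f₀ f₂ := by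
  obtain ⟨b, hb⟩ := h
  obtain ⟨b', hb'⟩ := h'
  refine ⟨fun l => b l + b' l, fun l h1 h2 => ?_⟩
  rw [dl_add, ← hb l h1 h2, ← hb' l h1 h2]
  ring

omit [PseudoMetricSpace E'] in
theorem Hm.mono {Y : Set E} {δ' : ℝ} (h : Hm eta X δ d f₀ f₁) (hY : Y ⊆ X) (hδ : δ' ≤ δ) :
    Hm eta Y δ' d f₀ f₁ := by
  obtain ⟨b, hb⟩ := h
  exact ⟨b, fun l h1 h2 => hb l h1 (h2.mono hY hδ)⟩

omit [PseudoMetricSpace E'] in
theorem Hm.congr {g₀ g₁ : E → E'} (h : Hm eta X δ d f₀ f₁) (h₀ : EqOn g₀ f₀ X)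
    (h₁ : EqOn g₁ f₁ X) : Hm eta X δ d g₀ g₁ := by
  obtain ⟨b, hb⟩ := h
  refine ⟨b, fun l hl1 hl2 => ?_⟩
  rw [← hb l hl1 hl2, List.map_congr_left fun x hx => h₀ (hl2.1 x hx),
    List.map_congr_left fun x hx => h₁ (hl2.1 x hx)]

/-- Contiguous maps. -/
theorem Hm.of_close (h₀ : MapsTo f₀ X X') (h₁ : MapsTo f₁ X X')
    (hc : ∀ x ∈ X, ∀ y ∈ X, dist x y < δ →
      dist (f₀ x) (f₀ y) < ε ∧ dist (f₀ x) (f₁ y) < ε ∧ dist (f₁ x) (f₁ y) < ε)
    (heta : ∀ l, l.length = d + 2 → SmL X' ε l → dl eta l = 0) : Hm eta X δ d f₀ f₁ := by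
  refine ⟨prg f₀ f₁ eta, fun l hl1 hl2 => prg_spec f₀ f₁ eta (by rintro rfl; simp at hl1)
    fun l' hl' hm => heta l' (by omega) ⟨fun y hy => ?_, fun y hy y' hy' => ?_⟩⟩
  · obtain ⟨x, hx, rfl | rfl⟩ := hm y hy
    · exact h₀ (hl2.1 x hx)
    · exact h₁ (hl2.1 x hx)
  · obtain ⟨x, hx, hx'⟩ := hm y hy
    obtain ⟨z, hz, hz'⟩ := hm y' hy'
    have h1 := hc x (hl2.1 x hx) z (hl2.1 z hz) (hl2.2 x hx z hz)
    have h2 := hc z (hl2.1 z hz) x (hl2.1 x hx) (hl2.2 z hz x hx)
    rcases hx' with rfl | rfl <;> rcases hz' with rfl | rfl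
    · exact h1.1
    · exact h1.2.1
    · rw [dist_comm]; exact h2.2.1
    · exact h1.2.2

/-- **Homotopy invariance**: a family of maps over a preconnected set. -/
theorem Hm.of_preconnected {S : Set V} (hS : IsPreconnected S) {G : V → E → E'} (hδ : 0 < δ)
    (hG : ∀ v ∈ S, MapsTo (G v) X X')
    (hc : ∀ v ∈ S, ∀ w ∈ S, ∀ x ∈ X, ∀ y ∈ X, dist v w < δ → dist x y < δ →
      dist (G v x) (G w y) < ε)
    (heta : ∀ l, l.length = d + 2 → SmL X' ε l → dl eta l = 0) {v w : V} (hv : v ∈ S)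
    (hw : w ∈ S) : Hm eta X δ d (G v) (G w) := by
  refine hS.induction₂ (fun v w => Hm eta X δ d (G v) (G w)) (fun v hv => ?_)
    (fun _ _ _ _ _ _ h h' => h.trans h') (fun _ _ _ _ h => h.symm) hv hw
  have h1 : ∀ᶠ w in 𝓝[S] v, dist v w < δ := by
    have := Metric.ball_mem_nhds v hδ
    filter_upwards [mem_nhdsWithin_of_mem_nhds this] with w hw
    rw [dist_comm]
    exact hw
  filter_upwards [h1, self_mem_nhdsWithin] with w hw hwS
  refine Hm.of_close (hG v hv) (hG w hwS) (fun x hx y hy hxy => ⟨?_, ?_, ?_⟩) heta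
  · exact hc v hv v hv x hx y hy (by rwa [dist_self]) hxy
  · exact hc v hv w hwS x hx y hy hw hxy
  · exact hc w hwS w hwS x hx y hy (by rwa [dist_self]) hxy

omit [PseudoMetricSpace E'] in
/-- Cycles do not distinguish homotopic maps. -/
theorem Hm.ev_eq (h : Hm eta X δ d f₀ f₁) {z : Ch k E}
    (hz : z ∈ Sp k (fun l => l.length = d + 1 ∧ SmL X δ l)) (hbz : bd z = 0) :
    ev (fun l => eta (l.map f₁)) z = ev (fun l => eta (l.map f₀)) z := by
  obtain ⟨b, hb⟩ := h
  have h1 := ev_dl_eq_zero (f := b) hbz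
  have h2 : ev (dl b) z = ev (fun l => eta (l.map f₁) + (-1) * eta (l.map f₀)) z :=
    ev_congr (fun l hl => by rw [← hb l hl.1 hl.2]; ring) hz
  rw [h2, ev_add_fun, ev_smul_fun] at h1
  linear_combination h1

omit [PseudoMetricSpace E'] in
/-- A weighted sum of pull-backs by maps homotopic to `i₀`. -/
theorem Hm.ev_sum {Ξ : Type} {a : List Ξ → k} {Z : Ch k Ξ} {i : List Ξ → E → E'} {i₀ : E → E'}
    (h : ∀ ξ, Z ξ ≠ 0 → a ξ ≠ 0 → Hm eta X δ d i₀ (i ξ)) :
    ∃ b : List E → k, ∀ y, y.length = d + 1 → SmL X δ y →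
      ev (fun ξ => a ξ * eta (y.map (i ξ))) Z - ev a Z * eta (y.map i₀) = dl b y := by
  classical
  have h' : ∀ ξ, ∃ b : List E → k, Z ξ ≠ 0 → a ξ ≠ 0 → ∀ l, l.length = d + 1 → SmL X δ l →
      eta (l.map (i ξ)) - eta (l.map i₀) = dl b l := by
    intro ξ
    by_cases h0 : Z ξ ≠ 0 ∧ a ξ ≠ 0
    · obtain ⟨b, hb⟩ := h ξ h0.1 h0.2
      exact ⟨b, fun _ _ => hb⟩
    · exact ⟨fun _ => 0, fun h1 h2 => absurd ⟨h1, h2⟩ h0⟩
  choose b hb using h'
  refine ⟨fun l => ∑ ξ ∈ Z.support, (Z ξ * a ξ) * b ξ l, fun y hy1 hy2 => ?_⟩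
  rw [dl_sum, ev, ev, Finsupp.linearCombination_apply, Finsupp.linearCombination_apply,
    Finsupp.sum, Finsupp.sum, Finset.sum_mul, ← Finset.sum_sub_distrib]
  refine Finset.sum_congr rfl fun ξ hξ => ?_
  simp only [smul_eq_mul]
  by_cases ha : a ξ = 0
  · rw [ha]; ring
  · rw [← hb ξ (Finsupp.mem_support_iff.1 hξ) ha y hy1 hy2]
    ring

end Homotopy

end

/-! ### The point lemmas for the path spaces -/

section Paths

variable {M : Type} [MetricSpace M] [CompactSpace M] {a b c : M} {t s s' s₀ D C ε : ℝ} {d : ℕ}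
  {eta : List (ℝ →ᵇ M) → k} {v v' w w' : ℝ →ᵇ M}

/-- A change of time in a concatenation. -/
theorem dist_cat_time_le (h : s ≤ s') (hw : w ∈ P a b s) (hv : v ∈ P b c t) :
    dist (cat s w v) (cat s' w v) ≤ s' - s := by
  have hw' := P_mono h hw
  have e1 : w s = v 0 := by rw [eq_right hw le_rfl, eq_left hv le_rfl]
  have e2 : w s' = v 0 := by rw [eq_right hw h, eq_left hv le_rfl]
  rw [BoundedContinuousFunction.dist_le (sub_nonneg.2 h)]
  intro u
  rw [cat_apply hw.1 hv.1 e1, cat_apply hw'.1 hv.1 e2]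
  rcases le_total u s with h1 | h1
  · rw [catf_left h1, catf_left (h1.trans h), dist_self]
    exact sub_nonneg.2 h
  rcases le_total u s' with h2 | h2
  · rw [catf_right e1 h1, catf_left h2, eq_right hw h1, ← eq_left hv le_rfl]
    refine (hv.1 _ _).trans ?_
    rw [sub_zero, abs_of_nonneg (sub_nonneg.2 h1)]
    linarith
  · rw [catf_right e1 h1, catf_right e2 h2]
    refine (hv.1 _ _).trans ?_
    rw [abs_of_nonneg (by linarith)]
    linarith

/-- **Edge `σ = t`**: pull-backs by concatenation with joined paths. -/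
theorem Hm_cat_right (ht : 0 ≤ t) (hs : 0 ≤ s) (hε : 0 < ε)
    (heta : ∀ l, l.length = d + 2 → SmL (P a c (t + s)) ε l → dl eta l = 0)
    (h : JoinedIn (P b c s) v v') :
    Hm eta (P a b t) ε d (fun y => cat t y v) (fun y => cat t y v') := by
  obtain ⟨γ, hγ⟩ := h
  refine Hm.of_preconnected (S := range γ) (G := fun v y => cat t y v) (X' := P a c (t + s))
    (ε := ε) (isPreconnected_range γ.continuous) hε ?_ ?_ heta
    ⟨0, by rw [γ.source]⟩ ⟨1, by rw [γ.target]⟩
  · rintro _ ⟨θ, rfl⟩ y hy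
    exact cat_mem ht hs hy (hγ θ)
  · rintro _ ⟨θ, rfl⟩ _ ⟨θ', rfl⟩ y hy y' hy' h1 h2
    refine (dist_cat_cat_le hy.1 hy'.1 (hγ θ).1 (hγ θ').1 ?_ ?_).trans_lt (max_lt h2 h1)
    · rw [eq_right hy le_rfl, eq_left (hγ θ) le_rfl]
    · rw [eq_right hy' le_rfl, eq_left (hγ θ') le_rfl]

/-- Pull-backs by concatenation, the first factor moves. -/
theorem Hm_cat_left (ht : 0 ≤ t) (hs : 0 ≤ s) (hε : 0 < ε)
    (heta : ∀ l, l.length = d + 2 → SmL (P a c (s + t)) ε l → dl eta l = 0)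
    (h : JoinedIn (P a b s) w w') :
    Hm eta (P b c t) ε d (fun y => cat s w y) (fun y => cat s w' y) := by
  obtain ⟨γ, hγ⟩ := h
  refine Hm.of_preconnected (S := range γ) (G := fun v y => cat s v y) (X' := P a c (s + t))
    (ε := ε) (isPreconnected_range γ.continuous) hε ?_ ?_ heta
    ⟨0, by rw [γ.source]⟩ ⟨1, by rw [γ.target]⟩
  · rintro _ ⟨θ, rfl⟩ y hy
    exact cat_mem hs ht (hγ θ) hy
  · rintro _ ⟨θ, rfl⟩ _ ⟨θ', rfl⟩ y hy y' hy' h1 h2
    refine (dist_cat_cat_le (hγ θ).1 (hγ θ').1 hy.1 hy'.1 ?_ ?_).trans_lt (max_lt h1 h2)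
    · rw [eq_right (hγ θ) le_rfl, eq_left hy le_rfl]
    · rw [eq_right (hγ θ') le_rfl, eq_left hy' le_rfl]

/-- Pull-backs by concatenation, the time moves. -/
theorem Hm_cat_time (ht : 0 ≤ t) (hs : 0 ≤ s) (hss : s ≤ s') (hε : 0 < ε)
    (heta : ∀ l, l.length = d + 2 → SmL (P a c (s' + t)) ε l → dl eta l = 0)
    (hw : w ∈ P a b s) :
    Hm eta (P b c t) (ε / 2) d (fun y => cat s w y) (fun y => cat s' w y) := by
  refine Hm.of_preconnected (S := Icc s s') (G := fun θ y => cat θ w y)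
    (X' := P a c (s' + t)) (ε := ε) isPreconnected_Icc (by positivity) ?_ ?_ heta
    ⟨le_rfl, hss⟩ ⟨hss, le_rfl⟩
  · intro θ hθ y hy
    exact P_mono (by linarith [hθ.2]) (cat_mem (hs.trans hθ.1) ht (P_mono hθ.1 hw) hy)
  · intro θ hθ θ' hθ' y hy y' hy' h1 h2
    have key : ∀ θ ∈ Icc s s', ∀ θ' ∈ Icc s s', θ ≤ θ' → dist (cat θ w y) (cat θ' w y) ≤ |θ - θ'| :=
      fun θ hθ θ' _ hle => by
        rw [abs_sub_comm, abs_of_nonneg (sub_nonneg.2 hle)]
        exact dist_cat_time_le hle (P_mono hθ.1 hw) hy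
    have h3 : dist (cat θ w y) (cat θ' w y) ≤ |θ - θ'| := by
      rcases le_total θ θ' with hle | hle
      · exact key θ hθ θ' hθ' hle
      · rw [dist_comm, abs_sub_comm]
        exact key θ' hθ' θ hθ hle
    have hw' := P_mono hθ'.1 hw
    have h4 : dist (cat θ' w y) (cat θ' w y') ≤ dist y y' := by
      refine (dist_cat_cat_le hw'.1 hw'.1 hy.1 hy'.1 ?_ ?_).trans ?_
      · rw [eq_right hw' le_rfl, eq_left hy le_rfl]
      · rw [eq_right hw' le_rfl, eq_left hy' le_rfl]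
      · rw [dist_self]
        exact max_le dist_nonneg le_rfl
    rw [Real.dist_eq] at h1
    linarith [dist_triangle (cat θ w y) (cat θ' w y) (cat θ' w y')]

/-- **Edge `τ = 0`**: concatenations `w * α` with `w ∈ P a b s`, `s ≤ s₀`, are all homotopic
through paths of time `s₀ + D + C`, if any two points of `P a b s₀` are joined in
`P a b (s₀ + D)`. -/
theorem Hm_cat_slide (hC : 0 ≤ C) (hD : 0 ≤ D) (hε : 0 < ε)
    (hpi : ∀ w ∈ P a b s₀, ∀ w' ∈ P a b s₀, JoinedIn (P a b (s₀ + D)) w w')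
    (heta : ∀ l, l.length = d + 2 → SmL (P a c (s₀ + D + C)) ε l → dl eta l = 0)
    (hs : 0 ≤ s) (hs' : 0 ≤ s') (h : s ≤ s₀) (h' : s' ≤ s₀) (hw : w ∈ P a b s)
    (hw' : w' ∈ P a b s') :
    Hm eta (P b c C) (ε / 2) d (fun y => cat s w y) (fun y => cat s' w' y) := by
  have h1 := Hm_cat_time (s' := s₀ + D) hC hs (by linarith) hε heta hw
  have h2 := Hm_cat_left (t := C) hC (by linarith) hε heta (hpi w (P_mono h hw) w' (P_mono h' hw'))
  have h3 := Hm_cat_time (s' := s₀ + D) hC hs' (by linarith) hε heta hw'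
  exact (h1.trans (h2.mono le_rfl (by linarith))).trans h3.symm

end Paths

end Vale.Agent.P216.PS
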