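import Vale.Agent.P216.H787.Edges

/-!
# Associativity of the lattice path product
-/

open Finsupp

namespace Vale.Agent.P216.Sl

variable {k : Type} [Field k]
variable {α β γ : Type}

/-- Reassociation. -/
def asc (p : (α × β) × γ) : α × (β × γ) := (p.1.1, (p.1.2, p.2))

theorem Sh_Ln (s : List α) (t : List β) {n : ℕ} (h : s.length + t.length = n + 1) :
    (Sh s t : Ch k (α × β)) ∈ Sp k (Ln n) :=
  Sp_mono (fun l hl => by
    have := hl.1
    change l.length = n
    omega) (Sh_mem _ s t rfl)

/-- The recursion for `sh (Sh s t) u`. -/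
theorem sh_Sh_left (a : α) (s : List α) (b : β) (t : List β) (c : γ) (u : List γ)
    (h : ¬ (s = [] ∧ t = [] ∧ u = [])) :
    (sh (Sh (a :: s) (b :: t)) (single (c :: u) 1) : Ch k ((α × β) × γ)) =
      cons ((a, b), c) (sh (Sh s (b :: t)) (single (c :: u) 1) +
        (-1 : k) ^ s.length • sh (Sh (a :: s) t) (single (c :: u) 1) +
        (-1 : k) ^ (s.length + t.length) • sh (Sh (a :: s) (b :: t)) (single u 1)) := by
  by_cases h0 : s = [] ∧ t = []
  · obtain ⟨rfl, rfl⟩ := h0
    have hu : u ≠ [] := fun hu => h ⟨rfl, rfl, hu⟩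
    rw [Sh_one, Sh_nil_left, Sh_nil_right, sh_single, Sh_cons (by simp [hu]), Sh_nil_left, map_zero,
      LinearMap.zero_apply, smul_zero, zero_add, zero_add, zero_add, sh_single]
    simp
  · have hX : (Sh s (b :: t) + (-1 : k) ^ s.length • Sh (a :: s) t : Ch k (α × β)) ∈
        Sp k (Ln (s.length + t.length)) :=
      Submodule.add_mem _ (Sh_Ln _ _ (by simp only [List.length_cons]; omega))
        (Submodule.smul_mem _ _ (Sh_Ln _ _ (by simp only [List.length_cons]; omega)))
    have hn : s.length + t.length ≠ 0 := by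
      intro h1
      exact h0 ⟨List.length_eq_zero_iff.1 (by omega), List.length_eq_zero_iff.1 (by omega)⟩
    have e : (sh (Sh s (b :: t) + (-1 : k) ^ s.length • Sh (a :: s) t) (single (c :: u) 1) :
        Ch k ((α × β) × γ)) = sh (Sh s (b :: t)) (single (c :: u) 1) +
        (-1 : k) ^ s.length • sh (Sh (a :: s) t) (single (c :: u) 1) := by
      rw [map_add, map_smul, LinearMap.add_apply, LinearMap.smul_apply]
    rw [Sh_cons h0, sh_cons_cons_left _ _ _ hX (Or.inl hn), e]

/-- The recursion for `sh s (Sh t u)`. -/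
theorem sh_Sh_right (a : α) (s : List α) (b : β) (t : List β) (c : γ) (u : List γ)
    (h : ¬ (s = [] ∧ t = [] ∧ u = [])) :
    (sh (single (a :: s) 1) (Sh (b :: t) (c :: u)) : Ch k (α × (β × γ))) =
      cons (a, (b, c)) (sh (single s 1) (Sh (b :: t) (c :: u)) +
        (-1 : k) ^ s.length • sh (single (a :: s) 1) (Sh t (c :: u)) +
        (-1 : k) ^ (s.length + t.length) • sh (single (a :: s) 1) (Sh (b :: t) u)) := by
  by_cases h0 : t = [] ∧ u = []
  · obtain ⟨rfl, rfl⟩ := h0
    have hs : s ≠ [] := fun hs => h ⟨hs, rfl, rfl⟩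
    rw [Sh_one, Sh_nil_left, Sh_nil_right, sh_single, Sh_cons (by simp [hs]), Sh_nil_right,
      map_zero, smul_zero, smul_zero, add_zero, add_zero, add_zero, sh_single]
  · have hY : (Sh t (c :: u) + (-1 : k) ^ t.length • Sh (b :: t) u : Ch k (β × γ)) ∈
        Sp k (Ln (t.length + u.length)) :=
      Submodule.add_mem _ (Sh_Ln _ _ (by simp only [List.length_cons]; omega))
        (Submodule.smul_mem _ _ (Sh_Ln _ _ (by simp only [List.length_cons]; omega)))
    have hn : t.length + u.length ≠ 0 := by
      intro h1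
      exact h0 ⟨List.length_eq_zero_iff.1 (by omega), List.length_eq_zero_iff.1 (by omega)⟩
    have e : (sh (single (a :: s) 1) (Sh t (c :: u) + (-1 : k) ^ t.length • Sh (b :: t) u) :
        Ch k (α × (β × γ))) = sh (single (a :: s) 1) (Sh t (c :: u)) +
        (-1 : k) ^ t.length • sh (single (a :: s) 1) (Sh (b :: t) u) := by
      rw [map_add, map_smul]
    rw [Sh_cons h0, sh_cons_cons_right _ _ _ hY (Or.inl hn), e, smul_add, smul_smul, ← pow_add,
      add_assoc]

theorem asc_Sh (n : ℕ) : ∀ (s : List α) (t : List β) (u : List γ),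
    s.length + t.length + u.length = n →
    mp asc (sh (Sh s t) (single u 1) : Ch k ((α × β) × γ)) = sh (single s 1) (Sh t u) := by
  induction n with
  | zero =>
    intro s t u h
    have hs : s = [] := List.length_eq_zero_iff.1 (by omega)
    subst hs
    rw [Sh_nil_left, map_zero, LinearMap.zero_apply, map_zero, sh_nil_left]
  | succ n ih =>
    intro s t u h
    rcases s with _ | ⟨a, s⟩
    · rw [Sh_nil_left, map_zero, LinearMap.zero_apply, map_zero, sh_nil_left]
    rcases t with _ | ⟨b, t⟩
    · rw [Sh_nil_right, map_zero, LinearMap.zero_apply, map_zero, Sh_nil_left, map_zero]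
    rcases u with _ | ⟨c, u⟩
    · rw [sh_nil_right, map_zero, Sh_nil_right, map_zero]
    by_cases h0 : s = [] ∧ t = [] ∧ u = []
    · obtain ⟨rfl, rfl, rfl⟩ := h0
      rw [Sh_one, Sh_one, sh_single, sh_single, Sh_one, Sh_one, mp_single]
      rfl
    · simp only [List.length_cons] at h
      rw [sh_Sh_left a s b t c u h0, sh_Sh_right a s b t c u h0, mp_cons]
      have e := ih s (b :: t) (c :: u) (by simp only [List.length_cons]; omega)
      have e' := ih (a :: s) t (c :: u) (by simp only [List.length_cons]; omega)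
      have e'' := ih (a :: s) (b :: t) u (by simp only [List.length_cons]; omega)
      simp only [map_add, map_smul] at e e' e'' ⊢
      rw [e, e', e'']
      rfl

/-- **Associativity of the lattice path product.** -/
theorem sh_assoc (x : Ch k α) (y : Ch k β) (z : Ch k γ) :
    mp asc (sh (sh x y) z) = sh x (sh y z) := by
  have h1 : ∀ (s : List α) (t : List β), mp asc (sh (sh (single s (1 : k)) (single t 1)) z) =
      sh (single s 1) (sh (single t 1) z) := by
    intro s t
    refine lin_ext_apply (f := mp asc ∘ₗ sh (sh (single s (1 : k)) (single t (1 : k))))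
      (g := sh (single s (1 : k)) ∘ₗ sh (single t (1 : k))) (fun u => ?_) z
    rw [LinearMap.comp_apply, LinearMap.comp_apply, sh_single, sh_single]
    exact asc_Sh _ s t u rfl
  have h2 : ∀ s : List α, mp asc (sh (sh (single s (1 : k)) y) z) =
      sh (single s 1) (sh y z) := by
    intro s
    refine lin_ext_apply
      (f := mp asc ∘ₗ (sh (k := k)).flip z ∘ₗ sh (single s (1 : k)))
      (g := sh (single s (1 : k)) ∘ₗ (sh (k := k)).flip z) (fun t => ?_) y
    rw [LinearMap.comp_apply, LinearMap.comp_apply, LinearMap.comp_apply, LinearMap.flip_apply,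
      LinearMap.flip_apply]
    exact h1 s t
  refine lin_ext_apply
    (f := mp asc ∘ₗ (sh (k := k)).flip z ∘ₗ (sh (k := k)).flip y)
    (g := (sh (k := k)).flip (sh y z)) (fun s => ?_) x
  rw [LinearMap.comp_apply, LinearMap.comp_apply, LinearMap.flip_apply, LinearMap.flip_apply,
    LinearMap.flip_apply]
  exact h2 s

/-- Evaluation form. -/
theorem ev_sh_assoc (f : List (α × (β × γ)) → k) (x : Ch k α) (y : Ch k β) (z : Ch k γ) :
    ev f (sh x (sh y z)) = ev (fun l => f (l.map asc)) (sh (sh x y) z) := by
  rw [← sh_assoc, ev_mp]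

end Vale.Agent.P216.Sl
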