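import Vale.Agent.P216.Q633.Quat
import Vale.Agent.P216.H539.MooreD
import Vale.Agent.P216.H894.MooreMaps
import Vale.Agent.P216.MV337.ToX

/-!
# P216-S3, block GOM (G2): the classes of `Ω S³` are pulled back to the based loops of `M ≃ₜ S³`

`gom2`: for `M` homeomorphic to the unit quaternions, `f : M → S³` Lipschitz and close to the
homeomorphism: the class `om j` of the based Moore loops of `M` is the pull back of a class of an
energy sublevel of the based loops of `S³`, under `w ↦ ((f x₀)⁻¹ f (w (s ·)))`.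
-/

set_option linter.all false

namespace Vale.Agent.P216.H311

open Set Filter Topology BoundedContinuousFunction
open Vale.Agent.P216.PS
open Vale.Agent.P216.AS
open Vale.Agent.P216.B64 (HU hres hpull UMap OmegaOut)
open Vale.Agent.P216.MV337 (FL FL_subset_PP FL_mono pg cs cs_zero cs_succ cs_nonneg cs_le cs_const
  pg_of_nonpos pg_of_ge continuousOn_pg isCompact_FL hpull_hp hpull_hpull hpull_id hpull_congr)
open Vale.Agent.P216.L250 (XE LM fn isCompact_XE dist_fn_le_of_mem)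
open Vale.Agent.P216.LS (UniqSeg seg seg_self seg_one seg_zero Mi Mi_int MiL fn_MiL MiL_mem
  MiL_zero continuousOn_MiL)
open Vale.Agent.P216.H901 (tr Hp)
open Vale.Agent.P216.H894 (Hp_of_continuousOn Hp_trans Hp_congr)
open Vale.Agent.P216.MR (Good continuousOn_mo_pg plC toM toM_mem toM_apply toM_gM toM_MiL_one
  lip_Mi lip_gM gM gM_mem fn_gM_Icc continuousOn_gM dist_node_le cl cl_nonpos cl_ge lip_cl)
open Vale.Agent.P216.GM (XL)
open Vale.Agent.P216.Q633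

/-! ### Based polygons -/

section Based

variable {M : Type} [MetricSpace M] [CompactSpace M] {ρ ε s t T u : ℝ} {N : ℕ} {x₀ : M}

theorem P_sub_FL : P x₀ x₀ t ⊆ FL M t := MV337.P_subset_FL

theorem Good_memP (hU : UniqSeg M ρ) {x : ℕ → M} {Δ : ℕ → ℝ} (h : Good ρ T N x Δ)
    (h0 : x 0 = x₀) : mo (pg x Δ N) ∈ P x₀ x₀ T := by
  refine mo_mem (h.lip hU) (fun u hu => ?_) fun u hu => ?_
  · rw [pg_of_nonpos h.pos hu, h0]
  · rw [pg_of_ge h.pos (h.tot.trans hu), h.cl, h0]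

/-- Homotopies of based polygons. -/
theorem hp_pgP (hU : UniqSeg M ρ) {E : Type} [PseudoMetricSpace E] {X : Set E}
    (hX : IsCompact X) (hT : 0 ≤ T) {x : ℝ → E → ℕ → M} {Δ : ℝ → E → ℕ → ℝ}
    (hx : ∀ i ≤ N, ContinuousOn (fun q : ℝ × E => x q.1 q.2 i) (Icc (0:ℝ) 1 ×ˢ X))
    (hΔ : ∀ i < N, ContinuousOn (fun q : ℝ × E => Δ q.1 q.2 i) (Icc (0:ℝ) 1 ×ˢ X))
    (hG : ∀ s ∈ Icc (0:ℝ) 1, ∀ e ∈ X, Good ρ T N (x s e) (Δ s e))
    (h0 : ∀ s ∈ Icc (0:ℝ) 1, ∀ e ∈ X, x s e 0 = x₀) {f g : E → ℝ →ᵇ M}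
    (hf : EqOn (fun e => mo (pg (x 0 e) (Δ 0 e) N)) f X)
    (hg : EqOn (fun e => mo (pg (x 1 e) (Δ 1 e) N)) g X) : Hp X ∅ (P x₀ x₀ T) ∅ f g :=
  Hp_of_continuousOn hX (D := fun s e => mo (pg (x s e) (Δ s e) N))
    (continuousOn_mo_pg hU hT hx hΔ fun q hq => hG q.1 hq.1 q.2 hq.2)
    (fun s hs e he => Good_memP hU (hG s hs e he) (h0 s hs e he))
    (fun _ _ => mapsTo_empty _ _) hf hg

/-- The based Milnor homotopy. -/
theorem hp_milP (hN : 0 < N) (hU : UniqSeg M ρ) (hρ : 0 < ρ) (ht : 0 < t)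
    (htN : t ^ 2 < N * ρ ^ 2) (htN' : t / N < ρ) (hT : t ≤ T) :
    Hp (P x₀ x₀ t) ∅ (P x₀ x₀ T) ∅ id (plC N t) := by
  haveI : NeZero N := ⟨hN.ne'⟩
  have hlip : ∀ τ ∈ Icc (0:ℝ) 1, ∀ w ∈ FL M t, ∀ u v,
      dist (fn (MiL N τ (gM t w)) u) (fn (MiL N τ (gM t w)) v) ≤ t * |u - v| := by
    intro τ hτ w hw u v
    rw [fn_MiL hU hρ htN (gM_mem ht.le hw) hτ, fn_MiL hU hρ htN (gM_mem ht.le hw) hτ]
    exact lip_Mi hU ht.le htN' (lip_gM ht.le hw) hτ u v
  have hbase : ∀ τ ∈ Icc (0:ℝ) 1, ∀ w ∈ P x₀ x₀ t, fn (MiL N τ (gM t w)) 0 = x₀ := by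
    intro τ hτ w hw
    rw [fn_MiL hU hρ htN (gM_mem ht.le (P_sub_FL hw)) hτ]
    have := Mi_int (K := N) (fn (gM t w)) hτ 0
    rw [Int.cast_zero, zero_div] at this
    rw [this, fn_gM_Icc ht.le (P_sub_FL hw) ⟨le_rfl, zero_le_one⟩, mul_zero, eq_left hw le_rfl]
  have hmem : ∀ τ ∈ Icc (0:ℝ) 1, ∀ w ∈ P x₀ x₀ t, toM t (MiL N τ (gM t w)) ∈ P x₀ x₀ T := by
    intro τ hτ w hw
    refine P_mono hT (mo_mem (lip_cl ht (hlip τ hτ w (P_sub_FL hw))) (fun u hu => ?_)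
      fun u hu => ?_)
    · rw [cl_nonpos hu ht, hbase τ hτ w hw]
    · rw [cl_ge ht hu]
      have := L250.fn_periodic (MiL N τ (gM t w)) 0
      rw [zero_add] at this
      rw [this, hbase τ hτ w hw]
  refine Hp_of_continuousOn (D := fun τ w => toM t (MiL N τ (gM t w))) (isCompact_P _ _ _) ?_
    (fun τ hτ w hw => hmem τ hτ w hw) (fun _ _ => mapsTo_empty _ _) (fun w hw => ?_) fun w hw => ?_
  · refine continuousOn_of_eval (ht.le.trans hT) (fun q hq => P_subset_PP (hmem q.1 hq.1 q.2 hq.2))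
      fun u => ?_
    refine ContinuousOn.congr (f := fun q : ℝ × (ℝ →ᵇ M) => fn (MiL N q.1 (gM t q.2)) (cl t u)) ?_
      fun q hq => toM_apply ht (hlip q.1 hq.1 q.2 (P_sub_FL hq.2)) u
    have h1 : ContinuousOn (fun q : ℝ × (ℝ →ᵇ M) => (q.1, gM t q.2)) (Icc (0:ℝ) 1 ×ˢ P x₀ x₀ t) :=
      continuousOn_fst.prodMk (((continuousOn_gM ht).mono P_sub_FL).comp continuousOn_snd
        fun q hq => hq.2)
    have h2 := (continuousOn_MiL (M := M) hU hρ ht.le htN).comp h1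
      fun q hq => ⟨hq.1, gM_mem ht.le (P_sub_FL hq.2)⟩
    exact (LS.continuous_fn_left (cl t u)).comp_continuousOn h2
  · show toM t (MiL N 0 (gM t w)) = w
    rw [MiL_zero, toM_gM ht (P_sub_FL hw)]
  · exact toM_MiL_one hU hρ ht htN htN' (P_sub_FL hw)

theorem XL_eq (hs : 0 ≤ s) : XL M s = XE M s := by
  show XE M (max s 0) = XE M s
  rw [max_eq_left hs]

theorem gM_mem_XL (hs : 0 ≤ s) {w : ℝ →ᵇ M} (hw : w ∈ P x₀ x₀ s) : gM s w ∈ XL M s := by
  have h := gM_mem hs (P_sub_FL hw)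
  rwa [← XL_eq hs] at h

/-- Change of scale. -/
theorem umap_gM (hs : 0 < s) : UMap (P x₀ x₀ s) (XL M s) (gM s) :=
  IsMap.of_continuousOn (isCompact_P _ _ _) ((continuousOn_gM hs).mono P_sub_FL)
    (fun _ hw => gM_mem_XL hs.le hw) fun i => i.elim

end Based

/-! ### The classes `om j` at high levels -/

section Om

variable {M : Type} [MetricSpace M] {m : ℕ} {x₀ : M} {B : ℝ} {k : Type} [Field k]

theorem om_ne_zero (hB : 0 ≤ B) (O : OmegaOut M m x₀ B k) (j : ℕ) :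
    ∀ s : ℝ, (j : ℝ) * B ≤ s → O.om j s ≠ 0 := by
  have key : O.om j (j * B) ≠ 0 := by
    induction j with
    | zero =>
      rw [Nat.cast_zero, zero_mul]
      exact O.om_ne 0 le_rfl
    | succ j ih =>
      intro h
      apply ih
      refine O.down j (j * B) (by positivity) ?_
      rwa [show (j : ℝ) * B + B = ((j + 1 : ℕ) : ℝ) * B by push_cast; ring]
  intro s hs h
  apply key
  rw [← O.res_om j _ s hs, h, map_zero]

end Om

/-! ### The polygon of a based loop of `S³` -/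

section Pol

variable {M : Type} [MetricSpace M] [CompactSpace M] {ρ r s T : ℝ} {N : ℕ} {x₀ : M}

/-- The polygon of a based loop. -/
noncomputable def pA (e : S3 → M) (r : ℝ) (N : ℕ) (w : EY) : ℝ →ᵇ M :=
  mo (pg (fun i => e (fn w.1 ((i : ℝ) / N))) (fun _ => r) N)

theorem fn_EY_one (w : EY) : fn w.1 1 = 1 := by
  have h := L250.fn_periodic w.1 0
  rw [zero_add] at h
  rw [h, w.2]

/-- Distances along a loop of bounded energy. -/
theorem dist_nodes_le {s : ℝ} (hs : 0 ≤ s) {w : EY} (hw : w ∈ Y s) (hN : 0 < N) (i : ℕ) :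
    dist (fn w.1 ((i : ℝ) / N)) (fn w.1 (((i + 1 : ℕ) : ℝ) / N)) ≤ s * Real.sqrt (1 / N) := by
  have hw' : w.1 ∈ XE S3 s := by
    have : w.1 ∈ XL S3 s := hw
    rwa [XL_eq hs] at this
  have h := dist_fn_le_of_mem hw' hs ((i : ℝ) / N) (((i + 1 : ℕ) : ℝ) / N)
  have hN' : (0 : ℝ) < N := Nat.cast_pos.2 hN
  have e : |(i : ℝ) / N - ((i + 1 : ℕ) : ℝ) / N| = 1 / N := by
    have : (i : ℝ) / N - ((i + 1 : ℕ) : ℝ) / N = -(1 / N) := by push_cast; ring
    rw [this, abs_neg, abs_of_pos (by positivity)]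
  rwa [e] at h

theorem good_pA {e : S3 → M} (he0 : e 1 = x₀) (hr : 0 < r) (hrρ : r < ρ) (hN : 0 < N) {w : EY}
    (h : ∀ i : ℕ, dist (e (fn w.1 ((i : ℝ) / N))) (e (fn w.1 (((i + 1 : ℕ) : ℝ) / N))) ≤ r) :
    Good ρ (N * r) N (fun i => e (fn w.1 ((i : ℝ) / N))) (fun _ => r) where
  pos _ _ := hr
  lt i _ := (h i).trans_lt hrρ
  le i _ := h i
  tot := by rw [cs_const]
  cl := by
    have hN' : (N : ℝ) ≠ 0 := by positivity
    show e (fn w.1 ((N : ℝ) / N)) = e (fn w.1 (((0 : ℕ) : ℝ) / N))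
    rw [div_self hN', Nat.cast_zero, zero_div, fn_EY_one, w.2]

/-- The polygon map on an energy sublevel. -/
theorem umap_pA (hU : UniqSeg M ρ) {e : S3 → M} (he : Continuous e) (he0 : e 1 = x₀) (hr : 0 < r)
    (hrρ : r < ρ) (hN : 0 < N) {s' : ℝ}
    (h : ∀ w ∈ Y s', ∀ i : ℕ, dist (e (fn w.1 ((i : ℝ) / N)))
      (e (fn w.1 (((i + 1 : ℕ) : ℝ) / N))) ≤ r) :
    UMap (Y s') (P x₀ x₀ (N * r)) (pA e r N) := by
  have hT : 0 ≤ (N : ℝ) * r := by positivity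
  refine IsMap.of_continuousOn (isCompact_Y s') ?_ (fun w hw => ?_) fun i => i.elim
  · refine continuousOn_mo_pg (ρ := ρ) hU hT (fun i _ => ?_) (fun i _ => continuousOn_const)
      fun w hw => good_pA he0 hr hrρ hN (h w hw)
    exact (he.comp ((LS.continuous_fn_left _).comp continuous_subtype_val)).continuousOn
  · refine Good_memP hU (good_pA he0 hr hrρ hN (h w hw)) ?_
    show e (fn w.1 (((0 : ℕ) : ℝ) / N)) = x₀
    rw [Nat.cast_zero, zero_div, w.2, he0]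

/-- **The polygon of the translated image of a Moore loop is homotopic to the Moore loop.** -/
theorem hp_pA_gM (hU : UniqSeg M ρ) (hρ : 0 < ρ) (hs : 0 < s) (hN : 0 < N)
    (hN1 : s ^ 2 < N * ρ ^ 2) (hN2 : s / N ≤ ρ / 8) {e : S3 → M} (he : Continuous e)
    (he0 : e 1 = x₀) {f : C(M, S3)}
    (hc : ∀ x, dist x (e ((f x₀)⁻¹ * f x)) ≤ ρ / 8) :
    Hp (P x₀ x₀ s) ∅ (P x₀ x₀ (N * (ρ / 2))) ∅ id (fun w => pA e (ρ / 2) N (qm f (gM s w))) := by
  have hN' : (0 : ℝ) < N := Nat.cast_pos.2 hN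
  have hr : 0 < ρ / 2 := by positivity
  have hsN : s ≤ N * (ρ / 2) := by
    rw [div_le_iff₀ hN'] at hN2
    nlinarith
  have hT : 0 ≤ (N : ℝ) * (ρ / 2) := by positivity
  have hsN0 : 0 < s / N := div_pos hs hN'
  have hX := isCompact_P x₀ x₀ s
  have hnode : ∀ w ∈ P x₀ x₀ s, ∀ i : ℕ, dist (w (s * ((i : ℝ) / N)))
      (w (s * (((i + 1 : ℕ) : ℝ) / N))) ≤ s / N := fun w hw i =>
    dist_node_le hs.le hN (P_sub_FL hw) i
  have hw0 : ∀ w ∈ P x₀ x₀ s, w (s * (((0 : ℕ) : ℝ) / N)) = x₀ := fun w hw => by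
    rw [Nat.cast_zero, zero_div, mul_zero, eq_left hw le_rfl]
  have hwN : ∀ w ∈ P x₀ x₀ s, w (s * ((N : ℝ) / N)) = x₀ := fun w hw => by
    rw [div_self hN'.ne', mul_one, eq_right hw le_rfl]
  have hcont : ∀ i : ℕ, ContinuousOn (fun q : ℝ × (ℝ →ᵇ M) => q.2 (s * ((i : ℝ) / N)))
      (Icc (0:ℝ) 1 ×ˢ P x₀ x₀ s) := fun i =>
    ((continuous_eval_const _).comp continuous_snd).continuousOn
  -- step 1
  have h1 : Hp (P x₀ x₀ s) ∅ (P x₀ x₀ (N * (ρ / 2))) ∅ id (plC N s) :=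
    hp_milP hN hU hρ hs hN1 (by linarith) hsN
  -- step 2
  have h2 : Hp (P x₀ x₀ s) ∅ (P x₀ x₀ (N * (ρ / 2))) ∅ (plC N s)
      (fun w => mo (pg (fun i => w (s * ((i : ℝ) / N))) (fun _ => ρ / 2) N)) := by
    refine hp_pgP (N := N) (ρ := ρ) (x := fun _ w i => w (s * ((i : ℝ) / N)))
      (Δ := fun τ _ _ => (1 - τ) * (s / N) + τ * (ρ / 2)) hU hX hT (fun i _ => hcont i)
      (fun i _ => by fun_prop) (fun τ hτ w hw => ?_) (fun τ hτ w hw => hw0 w hw) (fun w hw => ?_)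
      fun w hw => ?_
    · have e1 : s / N ≤ (1 - τ) * (s / N) + τ * (ρ / 2) := by
        nlinarith [hτ.1, hτ.2]
      have e2 : (1 - τ) * (s / N) + τ * (ρ / 2) ≤ ρ / 2 := by
        nlinarith [hτ.1, hτ.2]
      refine ⟨fun i hi => by linarith, fun i hi => (hnode w hw i).trans_lt (by linarith),
        fun i hi => (hnode w hw i).trans e1, ?_, ?_⟩
      · rw [cs_const]
        exact mul_le_mul_of_nonneg_left e2 hN'.le
      · show w (s * ((N : ℝ) / N)) = w (s * (((0 : ℕ) : ℝ) / N))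
        rw [hwN w hw, hw0 w hw]
    · show mo (pg (fun i => w (s * ((i : ℝ) / N))) (fun _ => (1 - 0) * (s / N) + 0 * (ρ / 2)) N) =
        plC N s w
      rw [sub_zero, one_mul, zero_mul, add_zero]
      rfl
    · show mo (pg (fun i => w (s * ((i : ℝ) / N))) (fun _ => (1 - 1) * (s / N) + 1 * (ρ / 2)) N) =
        mo (pg (fun i => w (s * ((i : ℝ) / N))) (fun _ => ρ / 2) N)
      rw [sub_self, zero_mul, one_mul, zero_add]
  -- step 3
  have hlt : ∀ x, dist x (e ((f x₀)⁻¹ * f x)) < ρ := fun x => (hc x).trans_lt (by linarith)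
  have he1 : e ((f x₀)⁻¹ * f x₀) = x₀ := by rw [inv_mul_cancel, he0]
  have h3 : Hp (P x₀ x₀ s) ∅ (P x₀ x₀ (N * (ρ / 2))) ∅
      (fun w => mo (pg (fun i => w (s * ((i : ℝ) / N))) (fun _ => ρ / 2) N))
      (fun w => pA e (ρ / 2) N (qm f (gM s w))) := by
    refine hp_pgP (N := N) (ρ := ρ) (x := fun τ w i => seg (w (s * ((i : ℝ) / N)))
        (e ((f x₀)⁻¹ * f (w (s * ((i : ℝ) / N))))) τ)
      (Δ := fun _ _ _ => ρ / 2) hU hX hT (fun i _ => ?_)
      (fun i _ => continuousOn_const) (fun τ hτ w hw => ?_) (fun τ hτ w hw => ?_) (fun w hw => ?_)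
      fun w hw => ?_
    · refine LS.ContinuousOn.seg hU (hcont i) ?_ continuousOn_fst (fun q _ => hlt _)
        fun q hq => hq.1
      exact (he.comp (continuous_const.mul f.continuous)).comp_continuousOn (hcont i)
    · have hd : ∀ x, dist (seg x (e ((f x₀)⁻¹ * f x)) τ) x ≤ ρ / 8 := by
        intro x
        rw [dist_comm, LS.dist_left_seg hU (hlt x) hτ]
        exact (mul_le_of_le_one_left dist_nonneg hτ.2).trans (hc x)
      have hside : ∀ i : ℕ, dist (seg (w (s * ((i : ℝ) / N)))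
          (e ((f x₀)⁻¹ * f (w (s * ((i : ℝ) / N))))) τ)
          (seg (w (s * (((i + 1 : ℕ) : ℝ) / N)))
          (e ((f x₀)⁻¹ * f (w (s * (((i + 1 : ℕ) : ℝ) / N))))) τ) ≤ 3 / 8 * ρ := by
        intro i
        have a1 := hd (w (s * ((i : ℝ) / N)))
        have a2 := hd (w (s * (((i + 1 : ℕ) : ℝ) / N)))
        have a3 := hnode w hw i
        rw [dist_comm] at a2
        refine (dist_triangle4 _ (w (s * ((i : ℝ) / N))) (w (s * (((i + 1 : ℕ) : ℝ) / N))) _).trans ?_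
        linarith
      refine ⟨fun i hi => hr, fun i hi => (hside i).trans_lt (by linarith),
        fun i hi => (hside i).trans (by linarith), by rw [cs_const], ?_⟩
      show seg (w (s * ((N : ℝ) / N))) (e ((f x₀)⁻¹ * f (w (s * ((N : ℝ) / N))))) τ =
        seg (w (s * (((0 : ℕ) : ℝ) / N))) (e ((f x₀)⁻¹ * f (w (s * (((0 : ℕ) : ℝ) / N))))) τ
      rw [hwN w hw, hw0 w hw]
    · show seg (w (s * (((0 : ℕ) : ℝ) / N))) (e ((f x₀)⁻¹ * f (w (s * (((0 : ℕ) : ℝ) / N))))) τ = x₀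
      rw [hw0 w hw, he1, seg_self]
    · show mo (pg (fun i => seg (w (s * ((i : ℝ) / N)))
        (e ((f x₀)⁻¹ * f (w (s * ((i : ℝ) / N))))) 0) (fun _ => ρ / 2) N) = _
      simp only [seg_zero]
    · show mo (pg (fun i => seg (w (s * ((i : ℝ) / N)))
        (e ((f x₀)⁻¹ * f (w (s * ((i : ℝ) / N))))) 1) (fun _ => ρ / 2) N) = _
      simp only [seg_one]
      unfold pA
      congr 1
      funext u
      refine MV337.pg_congr (fun i hi => ?_) fun i _ => rfl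
      have hi' : (i : ℝ) / N ∈ Icc (0 : ℝ) 1 :=
        ⟨by positivity, (div_le_one hN').2 (by exact_mod_cast hi)⟩
      rw [fn_qm, fn_gM_Icc hs.le (P_sub_FL hw) hi', fn_gM_Icc hs.le (P_sub_FL hw)
        ⟨le_rfl, zero_le_one⟩, mul_zero, eq_left hw le_rfl]
  exact Hp_trans h1 (Hp_trans h2 h3)

end Pol

/-! ### The theorem -/

/-- **(G2).** -/
theorem gom2 {M : Type} [MetricSpace M] [CompactSpace M] {ρ : ℝ} (hρ : 0 < ρ)
    (hU : UniqSeg M ρ) (h : M ≃ₜ S3) {x₀ : M} (hx : h x₀ = 1) :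
    ∃ ε₀ > 0, ∀ (f : C(M, S3)) (K : ℝ) (hK : 0 ≤ K)
      (hf : ∀ x y, dist (f x) (f y) ≤ K * dist x y), (∀ x, dist (f x) (h x) ≤ ε₀) →
      ∀ (k : Type) [Field k] {B : ℝ} (_ : 0 ≤ B) (O : OmegaOut M 2 x₀ B k) (j : ℕ) (s : ℝ)
        (_ : 0 < s) (_ : (j : ℝ) * B ≤ s) (hg : UMap (P x₀ x₀ s) (XL M s) (gM s)),
        O.om j s ≠ 0 ∧ ∃ y : HU k (Y (K * s)) (j * 2),
          hpull k hg (j * 2) (hpull k (umap_qm hK hf s) (j * 2) y) = O.om j s := by
  have hec : Continuous h.symm := h.symm.continuous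
  have he0 : h.symm 1 = x₀ := by rw [← hx, h.symm_apply_apply]
  have huc : UniformContinuous h.symm := CompactSpace.uniformContinuous_of_continuous hec
  obtain ⟨δ, hδ, hδ'⟩ := Metric.uniformContinuous_iff.1 huc (ρ / 8) (by positivity)
  refine ⟨δ / 3, by positivity, fun f K hK hf hclose k _ B hB O j s hs hjs hg =>
    ⟨om_ne_zero hB O j s hjs, ?_⟩⟩
  have hc : ∀ x, dist x (h.symm ((f x₀)⁻¹ * f x)) ≤ ρ / 8 := by
    intro x
    have e1 : dist (h x) ((f x₀)⁻¹ * f x) < δ := by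
      have e2 := dist_div_le 1 (f x₀) (h x) (f x)
      rw [inv_one, one_mul] at e2
      have e3 := hclose x₀
      have e4 := hclose x
      rw [hx] at e3
      rw [dist_comm] at e3 e4
      linarith
    have := hδ' e1
    rw [h.symm_apply_apply] at this
    exact this.le
  -- the mesh
  obtain ⟨N, hN⟩ := exists_nat_gt (max (s ^ 2 / ρ ^ 2) (max (8 * s / ρ) ((K * s) ^ 2 / δ ^ 2)))
  have hN1 := (le_max_left _ _).trans_lt hN
  have hN2 := ((le_max_left _ _).trans (le_max_right _ _)).trans_lt hN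
  have hN3 := ((le_max_right _ _).trans (le_max_right _ _)).trans_lt hN
  have hN0 : (0 : ℝ) < N := lt_of_le_of_lt (by positivity) hN1
  have hN' : 0 < N := by exact_mod_cast hN0
  rw [div_lt_iff₀ (by positivity)] at hN1 hN2 hN3
  have hN2' : s / N ≤ ρ / 8 := by
    rw [div_le_iff₀ hN0]
    linarith
  have hhp := hp_pA_gM (x₀ := x₀) hU hρ hs hN' hN1 hN2' hec he0 (f := f) hc
  have hside : ∀ w ∈ Y (K * s), ∀ i : ℕ, dist (h.symm (fn w.1 ((i : ℝ) / N)))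
      (h.symm (fn w.1 (((i + 1 : ℕ) : ℝ) / N))) ≤ ρ / 2 := by
    intro w hw i
    have e1 := dist_nodes_le (by positivity) hw hN' i
    have e2 : K * s * Real.sqrt (1 / N) < δ := by
      refine lt_of_pow_lt_pow_left₀ 2 hδ.le ?_
      rw [mul_pow, Real.sq_sqrt (by positivity), mul_one_div, div_lt_iff₀ hN0]
      linarith
    exact (hδ' (e1.trans_lt e2)).le.trans (by linarith)
  have hA : UMap (Y (K * s)) (P x₀ x₀ (N * (ρ / 2))) (pA h.symm (ρ / 2) N) :=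
    umap_pA (ρ := ρ) hU hec he0 (by positivity) (by linarith) hN' hside
  have hsN : s ≤ N * (ρ / 2) := by
    rw [div_le_iff₀ hN0] at hN2'
    nlinarith
  refine ⟨hpull k hA (j * 2) (O.om j (N * (ρ / 2))), ?_⟩
  have hq := umap_qm hK hf s
  have h12 : UMap (XL M s) (P x₀ x₀ (N * (ρ / 2))) (pA h.symm (ρ / 2) N ∘ qm f) := hA.comp hq
  have h123 : UMap (P x₀ x₀ s) (P x₀ x₀ (N * (ρ / 2))) ((pA h.symm (ρ / 2) N ∘ qm f) ∘ gM s) :=
    h12.comp hg
  have hid : UMap (P x₀ x₀ s) (P x₀ x₀ (N * (ρ / 2))) id := IsMap.id_of_subset (P_mono hsN)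
  rw [hpull_hpull hA hq h12, hpull_hpull h12 hg h123, ← hpull_hp hid h123 hhp,
    hpull_id hid (P_mono hsN), O.res_om j s _ hsN]

end Vale.Agent.P216.H311
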