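import Vale.Agent.P216.N929.Om2
import Vale.Agent.P216.H311.Points
import Vale.Agent.P216.H311.Assoc
import Vale.Agent.P216.H250.Pi0P

/-!
# Block B35 (Cross): the integrand after the junction

`crossB`: on `z * (v * a) × [c + ℓ, c + ℓ + s]` the integrand `τ(w σ, p) ∪ g(w|[0,σ])` has the value
`± ⟨τ(α σ, p), a × ι⟩ ⟨g, z⟩`.
-/

open Finsupp Set BoundedContinuousFunction

namespace Vale.Agent.P216.H311

open Vale.Agent.P216.Sl Vale.Agent.P216.PS Vale.Agent.P216.N929

variable {k : Type} [Field k]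

/-! ### Evaluation on a product of a cochain which depends on the second factor only -/

section Abstract

variable {α β : Type}

/-- **Slant product**: `A` (normalised, on the second factor) uses up the second factor. -/
theorem ev_prod {A : List β → k} (hA : Nrm A) (G : List (α × β) → k) {m n : ℕ} {C : k}
    {z : Ch k α} {y : Ch k β} {Q : List β → Prop} (hz : z ∈ Sp k (Ln (m + 1)))
    (hy : y ∈ Sp k (fun t => t.length = n + 1 ∧ Q t))
    (h : ∀ t, t.length = n + 1 → Q t → A t ≠ 0 → ∀ b, t.drop n = [b] →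
      ev (fun l => G (l.map fun a => (a, b))) z = C) :
    ev (fun l => A ((l.take (n + 1)).map Prod.snd) * G (l.drop n)) (sh z y) =
      (-1 : k) ^ ((m + 2) * n) * (ev A y * C) := by
  have key : ∀ t : List β, t.length = n + 1 ∧ Q t →
      ev (fun l => A ((l.take (n + 1)).map Prod.snd) * G (l.drop n)) (sh z (single t (1 : k))) =
        (-1 : k) ^ ((m + 2) * n) * (A t * C) := by
    rintro t ⟨ht, hQ⟩
    have hd : (t.drop n).length = 1 := by rw [List.length_drop, ht]; omega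
    obtain ⟨b, hb⟩ := List.length_eq_one_iff.1 hd
    have htn : t ≠ [] := by rintro rfl; simp at ht
    have e := eq_of_mem (P := Ln (m + 1))
      (F := ev (fun l => A ((l.take (n + 1)).map Prod.snd) * G (l.drop n)) ∘ₗ
        (sh (k := k) (α := α) (β := β)).flip (single t (1 : k)))
      (G := ((-1 : k) ^ ((m + 2) * n) * A t) • ev (fun l => G (l.map fun a => (a, b))))
      (fun s hs => by
        have hs' : s.length = m + 1 := hs
        have hsn : s ≠ [] := by rintro rfl; simp at hs'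
        rw [LinearMap.comp_apply, LinearMap.flip_apply, sh_single, LinearMap.smul_apply, ev_single,
          front_right hA G n s t (by omega) hsn htn, if_pos (by omega), hb, Sh_point_right b hsn,
          ev_single, hs', List.take_of_length_le (by omega), smul_eq_mul]
        ring) hz
    rw [LinearMap.comp_apply, LinearMap.flip_apply, LinearMap.smul_apply, smul_eq_mul] at e
    rw [e]
    by_cases h0 : A t = 0
    · rw [h0]; ring
    · rw [h t ht hQ h0 b hb, mul_assoc]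
  have e := eq_of_mem (P := fun t => t.length = n + 1 ∧ Q t)
    (F := ev (fun l => A ((l.take (n + 1)).map Prod.snd) * G (l.drop n)) ∘ₗ
        (sh (k := k) (α := α) (β := β)) z)
    (G := ((-1 : k) ^ ((m + 2) * n) * C) • ev A)
    (fun t ht => by
      rw [LinearMap.comp_apply, key t ht, LinearMap.smul_apply, ev_single, smul_eq_mul]
      ring) hy
  rw [LinearMap.comp_apply, LinearMap.smul_apply, smul_eq_mul] at e
  rw [e]
  ring

end Abstract

/-! ### Concatenation and cutting -/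

section Paths

variable {M : Type} [MetricSpace M] [CompactSpace M] {a b c' x y p q : M} {t s c ℓ T r ρ ε : ℝ}
  {v v' w w' : ℝ →ᵇ M}

theorem cat_cst (hw : w ∈ P a b t) : cat t w (cst b) = w := by
  have h : w t = cst b 0 := by rw [eq_right hw le_rfl, cst_apply]
  ext u
  rw [cat_apply hw.1 (lip_cst b) h]
  rcases le_total u t with hu | hu
  · rw [catf_left hu]
  · rw [catf_right h hu, cst_apply, eq_right hw hu]

/-- After time `t` the concatenation is the second path. -/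
theorem cat_after (hw : w ∈ P a b t) (hw' : w' ∈ P b c' s) {σ : ℝ} (hσ : 0 ≤ σ) :
    cat t w w' (σ + t) = w' σ := by
  have h : w t = w' 0 := by rw [eq_right hw le_rfl, eq_left hw' le_rfl]
  rw [cat_apply hw.1 hw'.1 h, catf_right h (by linarith), add_sub_cancel_right]

/-- Cutting after the junction. -/
theorem cutp_cat (hseg : LS.UniqSeg M ρ) (hr : 0 < r) (hrρ : r < ρ) (hw : w ∈ P a b t)
    (hw' : w' ∈ P b c' s) {σ : ℝ} (hσ : 0 ≤ σ) (hd : dist (w' σ) p ≤ r) :
    cutp r p (cat t w w', σ + t) = cat t w (cutp r p (w', σ)) := by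
  have h : w t = w' 0 := by rw [eq_right hw le_rfl, eq_left hw' le_rfl]
  have hc := cat_after hw hw' hσ
  have hlc : Lip (cat t w w' : ℝ → M) := by
    intro u u'
    rw [cat_apply hw.1 hw'.1 h, cat_apply hw.1 hw'.1 h]
    exact lip_catf hw.1 hw'.1 h u u'
  have hd' : dist (w' σ) (cst p 0) ≤ r := by rwa [cst_apply]
  have hdc : dist (cat t w w' (σ + t)) (cst p 0) ≤ r := by rwa [hc]
  have hls := lip_spl hseg hr hrρ hw'.1 (lip_cst p) hd'
  have hap := splice_apply hseg hr hrρ hw'.1 (lip_cst p) hd'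
  have h2 : w t = cutp r p (w', σ) 0 := by
    rw [cutp]
    simp only
    rw [hap, spl_left hσ, h]
  have hl2 : Lip (cutp r p (w', σ) : ℝ → M) := by
    intro u u'
    rw [cutp]
    simp only
    rw [hap, hap]
    exact hls u u'
  ext u
  rw [cat_apply hw.1 hl2 h2]
  have e1 : cutp r p (cat t w w', σ + t) u = spl r (cat t w w') (cst p) (σ + t) 0 u :=
    splice_apply hseg hr hrρ hlc (lip_cst p) hdc u
  have e2 : ∀ u', cutp r p (w', σ) u' = spl r w' (cst p) σ 0 u' := hap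
  rw [e1]
  rcases le_total u t with hu | hu
  · rw [catf_left hu, spl_left (by linarith), cat_apply hw.1 hw'.1 h, catf_left hu]
  rw [catf_right h2 hu, e2]
  rcases le_total u (σ + t) with h3 | h3
  · rw [spl_left h3, spl_left (by linarith), cat_apply hw.1 hw'.1 h, catf_right h hu]
  rcases le_total u (σ + t + r) with h4 | h4
  · rw [spl_mid h3 h4, spl_mid (by linarith) (by linarith), hc]
    congr 2
    ring
  · rw [spl_right hr h4, spl_right hr (by linarith), cst_apply, cst_apply]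

/-- The cut path. -/
theorem cutp_mem (hseg : LS.UniqSeg M ρ) (hr : 0 < r) (hrρ : r < ρ) (hw : w ∈ P a b t) {σ : ℝ}
    (hσ : 0 ≤ σ) (hσT : σ ≤ T) (hd : dist (w σ) p ≤ r) : cutp r p (w, σ) ∈ P a p (T + r) := by
  have hm := splice_mem (a := a) (b := p) (t := 0) hseg hr hrρ (w := w) (w' := cst p)
      (σ := σ) (τ := 0) hw.1 (lip_cst p) (by rw [cst_apply]; exact hd)
      hσ le_rfl hw.2.1 (fun u _ => rfl)
  exact P_mono (by linarith) hm

/-! ### Attaching null homotopic loops -/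

/-- In degree `0`. -/
theorem cat_joined_zero {g : List (ℝ →ᵇ M) → k} (ht : 0 ≤ t) (hs : 0 ≤ s) (hε : 0 < ε)
    (hg : Coc (P a c' (t + s)) ε 0 g) (h : JoinedIn (P b c' s) v v') (hw : w ∈ P a b t) :
    g [cat t w v] = g [cat t w v'] := by
  obtain ⟨γ, hγ⟩ := h
  have hS : IsPreconnected (range γ) := isPreconnected_range γ.continuous
  have hmem : ∀ v ∈ range γ, cat t w v ∈ P a c' (t + s) := by
    rintro _ ⟨θ, rfl⟩
    exact cat_mem ht hs hw (hγ θ)
  have hcl : ∀ v ∈ range γ, ∀ v' ∈ range γ, dist (cat t w v) (cat t w v') ≤ dist v v' := by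
    rintro _ ⟨θ, rfl⟩ _ ⟨θ', rfl⟩
    have := dist_cat_cat_le (t := t) hw.1 hw.1 (hγ θ).1 (hγ θ').1
      (by rw [eq_right hw le_rfl, eq_left (hγ θ) le_rfl])
      (by rw [eq_right hw le_rfl, eq_left (hγ θ') le_rfl])
    rwa [dist_self, max_eq_right dist_nonneg] at this
  refine hS.induction₂ (fun v v' => g [cat t w v] = g [cat t w v']) (fun v hv => ?_)
    (fun _ _ _ _ _ _ h h' => h.trans h') (fun _ _ _ _ h => h.symm)
    ⟨0, by rw [γ.source]⟩ ⟨1, by rw [γ.target]⟩
  have h1 : ∀ᶠ w in nhdsWithin v (range γ), dist v w < ε := by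
    have := Metric.ball_mem_nhds v hε
    filter_upwards [mem_nhdsWithin_of_mem_nhds this] with w hw
    rw [dist_comm]
    exact hw
  filter_upwards [h1, self_mem_nhdsWithin] with v' hv' hvS
  have h2 := hg [cat t w v, cat t w v'] rfl ⟨fun u hu => ?_, fun u hu u' hu' => ?_⟩
  · rw [N929.dl_cons, N929.dl_cons, N929.dl_nil, sub_zero] at h2
    linear_combination -h2
  · simp only [List.mem_cons, List.not_mem_nil, or_false] at hu
    rcases hu with rfl | rfl
    · exact hmem v hv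
    · exact hmem v' hvS
  · have e1 := hcl v hv v' hvS
    simp only [List.mem_cons, List.not_mem_nil, or_false] at hu hu'
    rcases hu with rfl | rfl <;> rcases hu' with rfl | rfl
    · rwa [dist_self]
    · exact e1.trans_lt hv'
    · rw [dist_comm]
      exact e1.trans_lt hv'
    · rwa [dist_self]

/-- **Attaching a null homotopic loop does not change the value on a cycle.** -/
theorem ev_cat_joined {g : List (ℝ →ᵇ M) → k} {m : ℕ} (ht : 0 ≤ t) (hs : 0 ≤ s) (hε : 0 < ε)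
    (hg : Coc (P a c' (t + s)) ε m g) (h : JoinedIn (P b c' s) v v') {z : Ch k (ℝ →ᵇ M)}
    (hz : Cy (P a b t) ε m z) :
    ev (fun l => g (l.map fun w => cat t w v)) z = ev (fun l => g (l.map fun w => cat t w v')) z := by
  rcases Nat.eq_zero_or_pos m with rfl | hm
  · refine ev_congr (fun l hl => ?_) hz.1
    obtain ⟨w, rfl⟩ := List.length_eq_one_iff.1 hl.1
    exact cat_joined_zero ht hs hε hg h (hl.2.1 w List.mem_cons_self)
  · exact (Hm_cat_right ht hs hε (fun l h1 h2 => hg l h1 h2) h.symm).ev_eq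
      (Sp_mono (fun l hl => ⟨hl.1, hl.2.1, hl.2.2⟩) hz.1) (bd_eq_zero hz (by omega))

end Paths

/-! ### The part after the junction -/

/-- **After the junction.** -/
theorem crossB (M : Type) [MetricSpace M] [CompactSpace M] [SimplyConnectedSpace M]
    (ρ₀ ρ₁ r : ℝ) (x₀ p q : M) (c ℓ s : ℝ) (v : ℝ →ᵇ M)
    (k : Type) [Field k] (n m : ℕ) (τ : Tau k M n ρ₁) (g : List (ℝ →ᵇ M) → k) (ε₀ : ℝ)
    (hseg : LS.UniqSeg M ρ₀) (hr : 0 < r) (hrρ : r < ρ₀) (h1r : ρ₁ < r)
    (hc : 0 ≤ c) (hℓ : 0 ≤ ℓ) (hs : 0 ≤ s) (hv : v ∈ P p q ℓ) (hε₀ : 0 < ε₀)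
    (hg : ∀ T, Coc (P x₀ p T) ε₀ m g) {ε : ℝ} (hε : ε ≤ ε₀)
    {z a : Ch k (ℝ →ᵇ M)} {ι : Ch k ℝ} (hz : Cy (P x₀ p c) ε m z)
    (ha : a ∈ Sp k (fun l => l.length = n ∧ ∀ w ∈ l, w ∈ P q q s))
    (hι : ι ∈ Sp k (fun l => l.length = 2 ∧ ∀ σ ∈ l, σ ∈ Icc (0 : ℝ) s)) :
    ev (intg n τ.f g r p) (sh (mp (fun x : (ℝ →ᵇ M) × (ℝ →ᵇ M) => cat c x.1 (cat ℓ v x.2))
      (sh z a)) (mp (fun σ => σ + (c + ℓ)) ι)) =
      (-1 : k) ^ ((m + 2) * n) * (ev (fun l => τ.f (l.map (evp p))) (sh a ι) * ev g z) := by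
  obtain ⟨D, hD, -, hj⟩ := H250.pi0 (hr.trans hrρ) hseg
  -- the map on `(w, (α, σ))`
  obtain ⟨Ψ, hΨ⟩ : ∃ Ψ : (ℝ →ᵇ M) × ((ℝ →ᵇ M) × ℝ) → (ℝ →ᵇ M) × ℝ,
    Ψ = fun x => (cat c x.1 (cat ℓ v x.2.1), x.2.2 + (c + ℓ)) := ⟨_, rfl⟩
  have hmemv : ∀ α ∈ P q q s, cat ℓ v α ∈ P p q (ℓ + s) := fun α hα => cat_mem hℓ hs hv hα
  have hval : ∀ w ∈ P x₀ p c, ∀ α ∈ P q q s, ∀ σ, 0 ≤ σ →
      cat c w (cat ℓ v α) (σ + (c + ℓ)) = α σ := by
    intro w hw α hα σ hσ
    rw [show σ + (c + ℓ) = (σ + ℓ) + c by ring, cat_after hw (hmemv α hα) (by linarith),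
      cat_after hv hα hσ]
  -- step 1: naturality and associativity
  have e1 : ev (intg n τ.f g r p) (sh (mp (fun x : (ℝ →ᵇ M) × (ℝ →ᵇ M) =>
      cat c x.1 (cat ℓ v x.2)) (sh z a)) (mp (fun σ => σ + (c + ℓ)) ι)) =
      ev (fun L => intg n τ.f g r p (L.map Ψ)) (sh z (sh a ι)) := by
    rw [sh_mp, ev_mp, ev_sh_assoc]
    simp only [List.map_map]
    rw [hΨ]
    rfl
  -- step 2: the integrand
  have hzs : z ∈ Sp k (fun l => l.length = m + 1 ∧ ∀ w ∈ l, w ∈ P x₀ p c) :=
    Sp_mono (fun l hl => ⟨hl.1, hl.2.1⟩) hz.1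
  have hy : sh a ι ∈ Sp k (fun t : List ((ℝ →ᵇ M) × ℝ) => t.length = n + 1 ∧
      ∀ x ∈ t, x.1 ∈ P q q s ∧ x.2 ∈ Icc (0 : ℝ) s) :=
    sh_mem (fun l t L hl ht hL => ⟨by have := hL.1; omega, fun x hx =>
      ⟨hl.2 _ (hL.2 x hx).1, ht.2 _ (hL.2 x hx).2⟩⟩) ha hι
  have e2 : ev (fun L => intg n τ.f g r p (L.map Ψ)) (sh z (sh a ι)) =
      ev (fun L => (fun l => τ.f (l.map (evp p))) ((L.take (n + 1)).map Prod.snd) *
        (fun l => g (l.map fun x => cutp r p (Ψ x))) (L.drop n)) (sh z (sh a ι)) := by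
    refine ev_congr (P := fun L => ∀ x ∈ L, x.1 ∈ P x₀ p c ∧ x.2.1 ∈ P q q s ∧
      x.2.2 ∈ Icc (0 : ℝ) s) (fun L hL => ?_) (sh_mem (fun l t L hl ht hL => fun x hx => ⟨hl.2 _ (hL.2 x hx).1,
        ht.2 _ (hL.2 x hx).2⟩) hzs hy)
    rw [intg, N929.cup, ← List.map_take, ← List.map_drop, List.map_map, List.map_map]
    simp only [List.map_map]
    congr 2
    refine List.map_congr_left fun x hx => ?_
    have hx' := hL x (List.mem_of_mem_take hx)
    simp only [Function.comp_apply, hΨ, evp]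
    rw [hval _ hx'.1 _ hx'.2.1 _ hx'.2.2.1]
  rw [e1, e2]
  refine ev_prod (A := fun l => τ.f (l.map (evp p)))
    (Q := fun t : List ((ℝ →ᵇ M) × ℝ) => ∀ x ∈ t, x.1 ∈ P q q s ∧ x.2 ∈ Icc (0 : ℝ) s)
    (τ.nrm.map (evp p)) (fun l => g (l.map fun x => cutp r p (Ψ x))) (C := ev g z)
    (Sp_mono (fun l hl => hl.1) hzs) hy ?_
  -- step 3: the loops attached to `z` are null homotopic
  intro t htl ht hτ b hb
  have hbt : b ∈ t := List.mem_of_mem_drop (by rw [hb]; exact List.mem_cons_self)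
  have hbm := ht b hbt
  have hd : dist (b.1 b.2) p < ρ₁ := by
    by_contra hcon
    exact hτ (τ.supp _ ⟨evp p b, List.mem_map_of_mem hbt, not_lt.1 hcon⟩)
  have hd' : dist (cat ℓ v b.1 (b.2 + ℓ)) p ≤ r := by
    rw [cat_after hv hbm.1 hbm.2.1]
    linarith
  have hζ : cutp r p (cat ℓ v b.1, b.2 + ℓ) ∈ P p p (ℓ + s + r) :=
    cutp_mem hseg hr hrρ (hmemv _ hbm.1) (by linarith [hbm.2.1]) (by linarith [hbm.2.2]) hd'
  have h1 : ev (fun l => (fun l => g (l.map fun x => cutp r p (Ψ x))) (l.map fun a => (a, b))) z =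
      ev (fun l => g (l.map fun w => cat c w (cutp r p (cat ℓ v b.1, b.2 + ℓ)))) z := by
    refine ev_congr (fun l hl => ?_) hzs
    simp only [List.map_map]
    congr 1
    refine List.map_congr_left fun w hw => ?_
    simp only [Function.comp_apply, hΨ]
    rw [show b.2 + (c + ℓ) = (b.2 + ℓ) + c by ring]
    exact cutp_cat hseg hr hrρ (hl.2 w hw) (hmemv _ hbm.1) (by linarith [hbm.2.1]) hd'
  have hz' : Cy (P x₀ p c) ε₀ m z := hz.mono le_rfl hε
  rw [h1, ev_cat_joined hc (by linarith : (0 : ℝ) ≤ ℓ + s + r + D) hε₀ (hg _)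
    (hj p p (ℓ + s + r) (by linarith) _ hζ (cst p) (cst_mem p _)) hz']
  · refine ev_congr (fun l hl => ?_) hzs
    congr 1
    conv_rhs => rw [← List.map_id l]
    exact List.map_congr_left fun w hw => cat_cst (hl.2 w hw)

end Vale.Agent.P216.H311
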