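import Vale.Agent.P216.H311.PathSp

/-!
# The crossing swap on the Moore-Lipschitz path spaces

Points `p = ((α, τ), (σ, y))`, `α ∈ P x₀ x₁ C`, `τ ∈ [0, C]`, `σ ∈ [0, t]`, `y ∈ P x₂ x₃ t`.
-/

open Set Filter Topology BoundedContinuousFunction

namespace Vale.Agent.P216.PS

variable {M : Type*} [MetricSpace M]

/-- Paths with a time. -/
abbrev PT (M : Type*) [MetricSpace M] : Type _ := ((ℝ →ᵇ M) × ℝ) × (ℝ × (ℝ →ᵇ M))

/-- The domain of the swap. -/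
def Dom (x₀ x₁ x₂ x₃ : M) (C t : ℝ) : Set (PT M) :=
  (P x₀ x₁ C ×ˢ Icc 0 C) ×ˢ (Icc 0 t ×ˢ P x₂ x₃ t)

/-- The pair of points. -/
def cr (p : PT M) : M × M := (p.1.1 p.1.2, p.2.2 p.2.1)

/-- The part of the domain near the diagonal. -/
def Nr (x₀ x₁ x₂ x₃ : M) (C t r : ℝ) : Set (PT M) :=
  {p ∈ Dom x₀ x₁ x₂ x₃ C t | dist (cr p).1 (cr p).2 ≤ r}

/-- `y` up to `σ`, then `α` from `τ` on. -/
noncomputable def sw1 [CompactSpace M] (r : ℝ) (p : PT M) : ℝ →ᵇ M :=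
  splice r p.2.2 p.1.1 p.2.1 p.1.2

/-- `α` up to `τ`, then `y` from `σ` on. -/
noncomputable def sw2 [CompactSpace M] (r : ℝ) (p : PT M) : ℝ →ᵇ M :=
  splice r p.1.1 p.2.2 p.1.2 p.2.1

variable {x₀ x₁ x₂ x₃ : M} {C t r ρ : ℝ}

theorem continuous_cr : Continuous (cr : PT M → M × M) := by
  have h : Continuous fun p : (ℝ →ᵇ M) × ℝ => p.1 p.2 := continuous_eval
  refine Continuous.prodMk ?_ ?_
  · exact h.comp continuous_fst
  · exact h.comp ((continuous_snd.comp continuous_snd).prodMk (continuous_fst.comp continuous_snd))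

theorem Nr_subset : Nr x₀ x₁ x₂ x₃ C t r ⊆ Dom x₀ x₁ x₂ x₃ C t := fun _ h => h.1

variable [CompactSpace M]

theorem isCompact_Dom : IsCompact (Dom x₀ x₁ x₂ x₃ C t) :=
  ((isCompact_P _ _ _).prod isCompact_Icc).prod (isCompact_Icc.prod (isCompact_P _ _ _))

theorem isCompact_Nr : IsCompact (Nr x₀ x₁ x₂ x₃ C t r) := by
  have h : IsClosed {p : PT M | dist (cr p).1 (cr p).2 ≤ r} := isClosed_le
    ((continuous_fst.comp continuous_cr).dist (continuous_snd.comp continuous_cr)) continuous_const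
  exact isCompact_Dom.of_isClosed_subset (isCompact_Dom.isClosed.inter h) Nr_subset

theorem sw1_mem (h : LS.UniqSeg M ρ) (hr : 0 < r) (hrρ : r < ρ) {p : PT M}
    (hp : p ∈ Nr x₀ x₁ x₂ x₃ C t r) : sw1 r p ∈ P x₂ x₁ (p.2.1 + r + (C - p.1.2)) := by
  obtain ⟨⟨⟨hα, hτ⟩, ⟨hσ, hy⟩⟩, hd⟩ := hp
  refine splice_mem h hr hrρ hy.1 hα.1 ?_ hσ.1 hτ.2 hy.2.1 hα.2.2
  rw [dist_comm]
  exact hd

theorem sw2_mem (h : LS.UniqSeg M ρ) (hr : 0 < r) (hrρ : r < ρ) {p : PT M}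
    (hp : p ∈ Nr x₀ x₁ x₂ x₃ C t r) : sw2 r p ∈ P x₀ x₃ (p.1.2 + r + (t - p.2.1)) := by
  obtain ⟨⟨⟨hα, hτ⟩, ⟨hσ, hy⟩⟩, hd⟩ := hp
  exact splice_mem h hr hrρ hα.1 hy.1 hd hτ.1 hσ.2 hα.2.1 hy.2.2

theorem sw1_mem' (h : LS.UniqSeg M ρ) (hr : 0 < r) (hrρ : r < ρ) {p : PT M}
    (hp : p ∈ Nr x₀ x₁ x₂ x₃ C t r) : sw1 r p ∈ P x₂ x₁ (t + r + C) :=
  P_mono (by linarith [hp.1.1.2.1, hp.1.2.1.2]) (sw1_mem h hr hrρ hp)

theorem sw2_mem' (h : LS.UniqSeg M ρ) (hr : 0 < r) (hrρ : r < ρ) {p : PT M}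
    (hp : p ∈ Nr x₀ x₁ x₂ x₃ C t r) : sw2 r p ∈ P x₀ x₃ (C + r + t) :=
  P_mono (by linarith [hp.1.1.2.2, hp.1.2.1.1]) (sw2_mem h hr hrρ hp)

theorem continuousOn_sw1 (h : LS.UniqSeg M ρ) (hr : 0 < r) (hrρ : r < ρ) (hC : 0 ≤ C)
    (ht : 0 ≤ t) : ContinuousOn (sw1 r) (Nr x₀ x₁ x₂ x₃ C t r) := by
  refine continuousOn_splice h hr hrρ (t := t + r + C) (by linarith) (by fun_prop) (by fun_prop)
    (by fun_prop) (by fun_prop) (fun p hp => ?_) (fun p hp => hp.1.2.2.1) (fun p hp => hp.1.1.1.1)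
    fun p hp => P_subset_PP (sw1_mem' h hr hrρ hp)
  rw [dist_comm]
  exact hp.2

theorem continuousOn_sw2 (h : LS.UniqSeg M ρ) (hr : 0 < r) (hrρ : r < ρ) (hC : 0 ≤ C)
    (ht : 0 ≤ t) : ContinuousOn (sw2 r) (Nr x₀ x₁ x₂ x₃ C t r) :=
  continuousOn_splice h hr hrρ (t := C + r + t) (by linarith) (by fun_prop) (by fun_prop)
    (by fun_prop) (by fun_prop) (fun p hp => hp.2) (fun p hp => hp.1.1.1.1)
    (fun p hp => hp.1.2.2.1) fun p hp => P_subset_PP (sw2_mem' h hr hrρ hp)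

/-- Uniform continuity on a compact set. -/
theorem uc_of_continuousOn {E E' : Type*} [PseudoMetricSpace E] [PseudoMetricSpace E'] {S : Set E}
    (hS : IsCompact S) {f : E → E'} (hf : ContinuousOn f S) {ε : ℝ} (hε : 0 < ε) :
    ∃ δ > 0, ∀ x ∈ S, ∀ y ∈ S, dist x y < δ → dist (f x) (f y) < ε := by
  have h := hS.uniformContinuousOn_of_continuous hf
  rw [Metric.uniformContinuousOn_iff] at h
  obtain ⟨δ, hδ, h⟩ := h ε hε
  exact ⟨δ, hδ, fun x hx y hy hxy => h x hx y hy hxy⟩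

end Vale.Agent.P216.PS
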